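import Vale.Agent.P063.Sym
import Mathlib.Algebra.BigOperators.Field

/-!
The Fourier mass of one dyadic band of levels.
-/

namespace Vale.Agent.P063

open Finset

variable {ι V : Type*} [DecidableEq ι] [Fintype ι] [DecidableEq V]

/-- The dyadic band of levels. -/
def band (ι : Type*) [Fintype ι] (w : ℕ) : Finset (Finset ι) :=
  univ.filter fun S => w ≤ S.card ∧ S.card < 2 * w

/-- The Fourier mass of a band. -/
noncomputable def mass (b : ℝ) (f : Finset ι → ℝ) (w : ℕ) : ℝ :=
  ∑ S ∈ band ι w, coef b f S ^ 2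

/-- The sets used in the test. -/
noncomputable def tests (vs : ι → Finset V) (k : ℕ) (J : Finset ι) : Finset (Finset ι) :=
  letI := Classical.decPred (Good vs (256 * k) k)
  J.powerset.filter (Good vs (256 * k) k)

omit [DecidableEq ι] [Fintype ι] in
lemma mem_tests {vs : ι → Finset V} {k : ℕ} {J U : Finset ι} :
    U ∈ tests vs k J ↔ U ⊆ J ∧ Good vs (256 * k) k U := by
  simp [tests]

lemma sum_sq_coef {b : ℝ} (hb : Mid b) (f : Finset ι → ℝ) (Ss : Finset (Finset ι)) :
    ∑ S ∈ Ss, coef b f S ^ 2 ≤ ex b (fun z => f z ^ 2) :=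
  bessel hb Ss (fun S _ => Finset.subset_univ S) f ∅

omit [Fintype ι] in
lemma avg_sq_le_one {b : ℝ} (hb : Mid b) {f : Finset ι → ℝ} (hf : ∀ z, f z = 0 ∨ f z = 1)
    (J x : Finset ι) : avg b J (fun z => f z ^ 2) x ≤ 1 := by
  refine (avg_mono hb.pos hb.le_one (g := fun _ => 1) (fun z => ?_) x).trans
    (le_of_eq (avg_const _ _ _ _))
  rcases hf z with h | h <;> rw [h] <;> norm_num

/-- The test sum catches a quarter of the band. -/
lemma test_lower {b : ℝ} (hb : Mid b) (vs : ι → Finset V) (f : Finset ι → ℝ) {m k r w : ℕ}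
    (hk : 1 ≤ k) (hfib : ∀ A : Finset V, (univ.filter fun a => vs a ⊆ A).card ≤ m * A.card ^ r)
    (hmk : 2 * (m * (k - 1) ^ r) ≤ w) :
    mass b f w / 4 ≤ ex (dens k w) (fun J => ex b (fun x =>
      ∑ U ∈ tests vs k J, part b J f (band ι w) U x * cf b J f U x)) := by
  classical
  have hq := dens_mem (k := k) (w := w)
  have e1 : ∀ J : Finset ι, ex b (fun x =>
      ∑ U ∈ tests vs k J, part b J f (band ι w) U x * cf b J f U x) =
      ∑ S ∈ band ι w, coef b f S ^ 2 * ind (Good vs (256 * k) k (S ∩ J)) := by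
    intro J
    rw [show ex b (fun x => ∑ U ∈ tests vs k J, part b J f (band ι w) U x * cf b J f U x) =
      ∑ U ∈ tests vs k J, ex b (fun x => part b J f (band ι w) U x * cf b J f U x) from
        avg_sum _ _ _ _ _]
    simp only [ex_part_mul_cf hb]
    rw [Finset.sum_fiberwise_eq_sum_filter, Finset.sum_filter]
    refine Finset.sum_congr rfl fun S _ => ?_
    by_cases h : Good vs (256 * k) k (S ∩ J)
    · rw [ind_of h, if_pos (mem_tests.2 ⟨Finset.inter_subset_right, h⟩), mul_one]
    · rw [ind_of_not h, if_neg fun h' => h (mem_tests.1 h').2, mul_zero]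
  simp only [e1]
  rw [show ex (dens k w) (fun J : Finset ι =>
      ∑ S ∈ band ι w, coef b f S ^ 2 * ind (Good vs (256 * k) k (S ∩ J))) =
      ∑ S ∈ band ι w, ex (dens k w) (fun J : Finset ι =>
        coef b f S ^ 2 * ind (Good vs (256 * k) k (S ∩ J))) from avg_sum _ _ _ _ _,
    mass, Finset.sum_div]
  refine Finset.sum_le_sum fun S hS => ?_
  obtain ⟨-, h1, h2⟩ := Finset.mem_filter.1 hS
  have hfibS : ∀ A : Finset V, (S.filter fun a => vs a ⊆ A).card ≤ m * A.card ^ r := fun A =>
    le_trans (Finset.card_le_card fun a ha =>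
      Finset.mem_filter.2 ⟨Finset.mem_univ a, (Finset.mem_filter.1 ha).2⟩) (hfib A)
  have h3 := span_prob vs (S := S) (m := m) (k := k) (r := r) (w := w) hk hfibS h1 h2 hmk
  unfold ex at h3 ⊢
  rw [avg_mul_left]
  calc coef b f S ^ 2 / 4 = coef b f S ^ 2 * (1 / 4) := by ring
    _ ≤ _ := mul_le_mul_of_nonneg_left h3 (sq_nonneg _)

/-- The pointwise split of the test sum. -/
lemma test_pointwise {b γ : ℝ} (hb : Mid b) (hγ : 0 < γ) {M : ℕ} (hM : 0 < M)
    (vs : ι → Finset V) {f : Finset ι → ℝ} (hf : ∀ z, f z = 0 ∨ f z = 1) (k w : ℕ)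
    (J x : Finset ι) :
    ∑ U ∈ tests vs k J, part b J f (band ι w) U x * cf b J f U x ≤
      1 / 8 * (∑ U ∈ tests vs k J, part b J f (band ι w) U x ^ 2) +
        (∑ U ∈ tests vs k J, |part b J f (band ι w) U x| * bigEv b γ M f U J x) +
        2 * (1 / (γ * M) + (5 : ℝ) ^ (256 * k) * Real.sqrt γ) * ∑ e ∈ J, rinf b f J e x := by
  classical
  set B := bigSet b γ f J x with hB
  have hr0 : ∀ e, 0 ≤ rinf b f J e x := fun e => avg_nonneg hb.pos hb.le_one (piv_nonneg e f) x
  have hone : ∑ U ∈ tests vs k J, cf b J f U x ^ 2 ≤ 1 :=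
    (bessel hb _ (fun U hU => (mem_tests.1 hU).1) f x).trans (avg_sq_le_one hb hf J x)
  have habs : ∀ U ∈ tests vs k J, |cf b J f U x| ≤ 1 := fun U hU => by
    have h := (Finset.single_le_sum (f := fun U => cf b J f U x ^ 2)
      (fun U _ => sq_nonneg _) hU).trans hone
    rwa [sq_le_one_iff_abs_le_one] at h
  have hsplit : ∀ U ∈ tests vs k J, part b J f (band ι w) U x * cf b J f U x ≤
      1 / 8 * part b J f (band ι w) U x ^ 2 +
        |part b J f (band ι w) U x| * bigEv b γ M f U J x +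
        2 * cf b J f U x ^ 2 * (1 - bigEv b γ M f U J x) := by
    intro U hU
    rcases ind_zero_or_one (U ⊆ B ∧ B.card ≤ M) with h | h
    · have : bigEv b γ M f U J x = 0 := h
      rw [this]
      nlinarith [sq_nonneg (part b J f (band ι w) U x - 4 * cf b J f U x)]
    · have : bigEv b γ M f U J x = 1 := h
      rw [this]
      have h1 : part b J f (band ι w) U x * cf b J f U x ≤ |part b J f (band ι w) U x| := by
        refine (le_abs_self _).trans ?_
        rw [abs_mul]
        exact mul_le_of_le_one_right (abs_nonneg _) (habs U hU)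
      have h2 : 0 ≤ part b J f (band ι w) U x ^ 2 := sq_nonneg _
      linarith
  refine (Finset.sum_le_sum hsplit).trans ?_
  rw [Finset.sum_add_distrib, Finset.sum_add_distrib, ← Finset.mul_sum]
  refine add_le_add le_rfl ?_
  have hs0 : 0 ≤ ∑ e ∈ J, rinf b f J e x := Finset.sum_nonneg fun e _ => hr0 e
  have hgoal : ∑ U ∈ tests vs k J, cf b J f U x ^ 2 * (1 - bigEv b γ M f U J x) ≤
      (1 / (γ * M) + (5 : ℝ) ^ (256 * k) * Real.sqrt γ) * ∑ e ∈ J, rinf b f J e x := by
    by_cases hcard : B.card ≤ M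
    · have h1 : ∑ U ∈ tests vs k J, cf b J f U x ^ 2 * (1 - bigEv b γ M f U J x) ≤
          ∑ e ∈ J \ B, ∑ U ∈ (tests vs k J).filter (fun U => e ∈ U), cf b J f U x ^ 2 := by
        simp only [Finset.sum_filter]
        rw [Finset.sum_comm]
        refine Finset.sum_le_sum fun U hU => ?_
        have hnn : 0 ≤ ∑ e ∈ J \ B, if e ∈ U then cf b J f U x ^ 2 else 0 :=
          Finset.sum_nonneg fun e _ => by split_ifs <;> positivity
        by_cases hUB : U ⊆ B
        · have : bigEv b γ M f U J x = 1 := ind_of ⟨hUB, hcard⟩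
          rw [this, sub_self, mul_zero]
          exact hnn
        · have : bigEv b γ M f U J x = 0 := ind_of_not fun h => hUB h.1
          rw [this, sub_zero, mul_one]
          obtain ⟨e, he, heB⟩ := Finset.not_subset.1 hUB
          have h2 := Finset.single_le_sum (f := fun e => if e ∈ U then cf b J f U x ^ 2 else 0)
            (fun e _ => by split_ifs <;> positivity)
            (Finset.mem_sdiff.2 ⟨(mem_tests.1 hU).1 he, heB⟩ : e ∈ J \ B)
          rwa [if_pos he] at h2
      have h2 : ∀ e ∈ J \ B, ∑ U ∈ (tests vs k J).filter (fun U => e ∈ U), cf b J f U x ^ 2 ≤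
          (5 : ℝ) ^ (256 * k) * Real.sqrt γ * rinf b f J e x := by
        intro e he
        obtain ⟨heJ, heB⟩ := Finset.mem_sdiff.1 he
        refine (cf_sq_le hb heJ _ (K := 256 * k) (fun U hU => ?_) f hf x).trans ?_
        · obtain ⟨h, h'⟩ := Finset.mem_filter.1 hU
          exact ⟨(mem_tests.1 h).1, h', (mem_tests.1 h).2.1⟩
        · have hle : rinf b f J e x ≤ γ := not_lt.1 fun h => heB (Finset.mem_filter.2 ⟨heJ, h⟩)
          calc (5 : ℝ) ^ (256 * k) * (rinf b f J e x * Real.sqrt (rinf b f J e x))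
              ≤ (5 : ℝ) ^ (256 * k) * (rinf b f J e x * Real.sqrt γ) := by
                refine mul_le_mul_of_nonneg_left (mul_le_mul_of_nonneg_left ?_ (hr0 e)) (by positivity)
                exact Real.sqrt_le_sqrt hle
            _ = _ := by ring
      refine h1.trans ((Finset.sum_le_sum h2).trans ?_)
      rw [← Finset.mul_sum, add_mul]
      refine le_add_of_nonneg_of_le (by positivity) (mul_le_mul_of_nonneg_left ?_ (by positivity))
      exact Finset.sum_le_sum_of_subset_of_nonneg Finset.sdiff_subset fun e _ _ => hr0 e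
    · have h1 : ∑ U ∈ tests vs k J, cf b J f U x ^ 2 * (1 - bigEv b γ M f U J x) ≤ 1 := by
        refine le_trans (le_of_eq (Finset.sum_congr rfl fun U _ => ?_)) hone
        have : bigEv b γ M f U J x = 0 := ind_of_not fun h => hcard h.2
        rw [this, sub_zero, mul_one]
      have h2 : γ * M ≤ ∑ e ∈ J, rinf b f J e x := by
        calc γ * M ≤ γ * B.card := mul_le_mul_of_nonneg_left
              (by exact_mod_cast (not_le.1 hcard).le) hγ.le
          _ = ∑ _e ∈ B, γ := by rw [Finset.sum_const, nsmul_eq_mul, mul_comm]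
          _ ≤ ∑ e ∈ B, rinf b f J e x :=
              Finset.sum_le_sum fun e he => (Finset.mem_filter.1 he).2.le
          _ ≤ _ := Finset.sum_le_sum_of_subset_of_nonneg (Finset.filter_subset _ _)
              fun e _ _ => hr0 e
      have hγM : 0 < γ * (M : ℝ) := mul_pos hγ (by exact_mod_cast hM)
      refine h1.trans ?_
      rw [add_mul]
      refine le_add_of_le_of_nonneg ?_ (by positivity)
      rw [one_div, ← div_eq_inv_mul, le_div_iff₀ hγM, one_mul]
      exact h2
  calc ∑ U ∈ tests vs k J, 2 * cf b J f U x ^ 2 * (1 - bigEv b γ M f U J x)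
      = 2 * ∑ U ∈ tests vs k J, cf b J f U x ^ 2 * (1 - bigEv b γ M f U J x) := by
        rw [Finset.mul_sum]; exact Finset.sum_congr rfl fun U _ => by ring
    _ ≤ 2 * ((1 / (γ * M) + (5 : ℝ) ^ (256 * k) * Real.sqrt γ) * ∑ e ∈ J, rinf b f J e x) := by
        linarith
    _ = _ := by ring

/-- The mean restricted influence of the sample. -/
lemma ex_rinf_le {q b : ℝ} (hq0 : 0 ≤ q) (hq1 : q ≤ 1) (hb : Mid b) (f : Finset ι → ℝ) :
    ex q (fun J => ex b (fun x => ∑ e ∈ J, rinf b f J e x)) ≤ totInf b f := by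
  unfold ex
  refine (avg_mono hq0 hq1 (g := fun _ => totInf b f) (fun J => ?_) _).trans
    (le_of_eq (avg_const _ _ _ _))
  rw [avg_sum]
  unfold totInf
  refine (le_of_eq (Finset.sum_congr rfl fun e _ => ?_)).trans
    (Finset.sum_le_sum_of_subset_of_nonneg (Finset.subset_univ J) fun e _ _ =>
      avg_nonneg hb.pos hb.le_one (piv_nonneg e f) _)
  exact ex_avg b J (piv e f)

lemma ex_part_total {b : ℝ} (hb : Mid b) (vs : ι → Finset V) (f : Finset ι → ℝ) (k w : ℕ)
    (J : Finset ι) :
    ex b (fun x => ∑ U ∈ tests vs k J, part b J f (band ι w) U x ^ 2) ≤ mass b f w := by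
  classical
  rw [show ex b (fun x => ∑ U ∈ tests vs k J, part b J f (band ι w) U x ^ 2) =
    ∑ U ∈ tests vs k J, ex b (fun x => part b J f (band ι w) U x ^ 2) from avg_sum _ _ _ _ _]
  simp only [ex_part_sq hb]
  rw [Finset.sum_fiberwise_eq_sum_filter]
  exact Finset.sum_le_sum_of_subset_of_nonneg (Finset.filter_subset _ _) fun S _ _ => sq_nonneg _

/-- The part of the test where every coordinate is big. -/
lemma big_part_le [Fintype V] {b γ η : ℝ} (hb : Mid b) {M k w : ℕ} {vs : ι → Finset V}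
    {f : Finset ι → ℝ} (hf : ∀ z, f z = 0 ∨ f z = 1) (hsym : Symmetric vs f) (hη : 0 ≤ η)
    (hrare : ∀ U : Finset ι, Good vs (256 * k) k U →
      ((M + 1 : ℕ) : ℝ) ^ (256 * k) ≤ η ^ 4 * ((Fintype.card V).choose (span vs U).card : ℝ)) :
    ex (dens k w) (fun J => ex b (fun x =>
      ∑ U ∈ tests vs k J, |part b J f (band ι w) U x| * bigEv b γ M f U J x)) ≤
      (5 : ℝ) ^ w * η * ((((2 * w + 1 : ℕ) : ℝ) ^ (256 * k) +
        ((M + 1 : ℕ) : ℝ) ^ (256 * k)) / 2) := by
  classical
  obtain ⟨hq0, hq1⟩ := dens_mem (k := k) (w := w)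
  set q := dens k w with hq
  set K := 256 * k with hK
  set T := (univ : Finset (Finset ι)).filter (Good vs K k) with hT
  set β := fun U : Finset ι => ∑ S ∈ (band ι w).filter (fun S => U ⊆ S), coef b f S ^ 2 with hβ
  have hb0 := hb.pos
  have hb1 := hb.le_one
  have hwt : ∀ J y : Finset ι, 0 ≤ wt q univ J * wt b univ y := fun J y =>
    mul_nonneg (wt_nonneg hq0 hq1 _ _) (wt_nonneg hb0 hb1 _ _)
  -- pass to all candidates
  have step1 : ex q (fun J => ex b (fun x =>
      ∑ U ∈ tests vs k J, |part b J f (band ι w) U x| * bigEv b γ M f U J x)) ≤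
      ∑ U ∈ T, ex q (fun J => ex b (fun x => |part b J f (band ι w) U x| * bigEv b γ M f U J x)) := by
    unfold ex
    rw [← avg_sum]
    refine avg_mono hq0 hq1 (fun J => ?_) _
    rw [← avg_sum]
    refine avg_mono hb0 hb1 (fun x => ?_) _
    refine Finset.sum_le_sum_of_subset_of_nonneg (fun U hU => ?_) fun U _ _ =>
      mul_nonneg (abs_nonneg _) (ind_nonneg _)
    exact Finset.mem_filter.2 ⟨Finset.mem_univ U, (mem_tests.1 hU).2⟩
  refine step1.trans ?_
  have hβ0 : ∀ U, 0 ≤ β U := fun U => Finset.sum_nonneg fun S _ => sq_nonneg _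
  have step2 : ∀ U ∈ T, ex q (fun J => ex b (fun x =>
      |part b J f (band ι w) U x| * bigEv b γ M f U J x)) ≤
      (5 : ℝ) ^ w * η * ((β U + bigProb q b γ M f U) / 2) := by
    intro U hU
    have hUg := (Finset.mem_filter.1 hU).2
    set P := bigProb q b γ M f U with hP
    have hP0 : 0 ≤ P := bigProb_nonneg hq0 hq1 hb M f U
    have hPη : P ≤ η ^ 4 := by
      have h1 := choose_mul_bigProb_le (q := q) (γ := γ) hq0 hq1 hb M K hsym hUg.1
      have h2 := hrare U hUg
      have h3 : (0 : ℝ) < ((Fintype.card V).choose (span vs U).card : ℝ) := by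
        exact_mod_cast Nat.choose_pos ((span vs U).card_le_univ)
      refine le_of_mul_le_mul_left ?_ h3
      calc _ ≤ _ := h1
        _ ≤ η ^ 4 * ((Fintype.card V).choose (span vs U).card : ℝ) := h2
        _ = _ := mul_comm _ _
    have hflat : ∀ F : Finset ι → Finset ι → ℝ, ex q (fun J => ex b (F J)) =
        ∑ p : Finset ι × Finset ι, wt q univ p.1 * wt b univ p.2 * F p.1 p.2 := by
      intro F
      rw [Fintype.sum_prod_type, ex_eq_sum]
      refine Finset.sum_congr rfl fun J _ => ?_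
      rw [ex_eq_sum, Finset.mul_sum]
      exact Finset.sum_congr rfl fun y _ => by ring
    set X := ex q (fun J => ex b (fun x => |part b J f (band ι w) U x| * bigEv b γ M f U J x))
      with hX
    have hCS : X ^ 4 ≤ ex q (fun J => ex b (fun x => |part b J f (band ι w) U x| ^ 4)) * P ^ 3 := by
      rw [hX, hP, bigProb, hflat, hflat, hflat]
      exact sum_mul_ind_pow_four _ (fun p _ => hwt p.1 p.2) (fun p _ => ind_zero_or_one _)
        (fun p _ => abs_nonneg _)
    have h4 : ex q (fun J => ex b (fun x => |part b J f (band ι w) U x| ^ 4)) ≤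
        ((5 : ℝ) ^ (2 * w) * β U) ^ 2 := by
      refine (avg_mono hq0 hq1 (g := fun _ => ((5 : ℝ) ^ (2 * w) * β U) ^ 2) (fun J => ?_) _).trans
        (le_of_eq (avg_const _ _ _ _))
      have e : (fun x => |part b J f (band ι w) U x| ^ 4) = fun x => part b J f (band ι w) U x ^ 4 :=
        funext fun x => (show Even 4 by decide).pow_abs _
      rw [e]
      refine (ex_part_four hb J f _ U).trans
        (pow_le_pow_left₀ (Finset.sum_nonneg fun S _ => by positivity) ?_ 2)
      simp only [hβ]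
      rw [Finset.mul_sum]
      refine le_trans (Finset.sum_le_sum fun S hS => ?_)
        (Finset.sum_le_sum_of_subset_of_nonneg (fun S hS => ?_) fun S _ _ => by positivity)
      · have h5 := (Finset.mem_filter.1 (Finset.mem_filter.1 hS).1).2.2
        exact mul_le_mul_of_nonneg_right (pow_le_pow_right₀ (by norm_num) h5.le) (sq_nonneg _)
      · obtain ⟨h5, h6⟩ := Finset.mem_filter.1 hS
        exact Finset.mem_filter.2 ⟨h5, by rw [← h6]; exact Finset.inter_subset_left⟩
    have h7 : X ^ 4 ≤ ((5 : ℝ) ^ w * η * ((β U + P) / 2)) ^ 4 := by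
      refine (hCS.trans (mul_le_mul_of_nonneg_right h4 (by positivity))).trans ?_
      have h8 : β U * P ≤ ((β U + P) / 2) ^ 2 := by nlinarith [sq_nonneg (β U - P)]
      have h9 : (β U * P) ^ 2 * P ≤ (((β U + P) / 2) ^ 2) ^ 2 * η ^ 4 :=
        mul_le_mul (pow_le_pow_left₀ (mul_nonneg (hβ0 U) hP0) h8 2) hPη hP0 (by positivity)
      calc ((5 : ℝ) ^ (2 * w) * β U) ^ 2 * P ^ 3
          = ((5 : ℝ) ^ w) ^ 4 * ((β U * P) ^ 2 * P) := by rw [pow_mul']; ring
        _ ≤ ((5 : ℝ) ^ w) ^ 4 * ((((β U + P) / 2) ^ 2) ^ 2 * η ^ 4) :=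
            mul_le_mul_of_nonneg_left h9 (by positivity)
        _ = _ := by ring
    have hR0 : 0 ≤ (5 : ℝ) ^ w * η * ((β U + P) / 2) :=
      mul_nonneg (mul_nonneg (by positivity) hη) (by linarith [hβ0 U])
    exact le_of_pow_le_pow_left₀ (by norm_num) hR0 h7
  refine (Finset.sum_le_sum step2).trans ?_
  rw [← Finset.mul_sum, ← Finset.sum_div, Finset.sum_add_distrib]
  refine mul_le_mul_of_nonneg_left (div_le_div_of_nonneg_right (add_le_add ?_ ?_) (by norm_num))
    (mul_nonneg (by positivity) hη)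
  · calc ∑ U ∈ T, β U
        = ∑ S ∈ band ι w, ((T.filter fun U => U ⊆ S).card : ℝ) * coef b f S ^ 2 := by
          simp only [hβ, Finset.sum_filter]
          rw [Finset.sum_comm]
          refine Finset.sum_congr rfl fun S _ => ?_
          rw [← Finset.sum_filter, Finset.sum_const, nsmul_eq_mul]
      _ ≤ ∑ S ∈ band ι w, ((2 * w + 1 : ℕ) : ℝ) ^ K * coef b f S ^ 2 := by
          refine Finset.sum_le_sum fun S hS => mul_le_mul_of_nonneg_right ?_ (sq_nonneg _)
          have h5 := (Finset.mem_filter.1 hS).2.2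
          have hle : (T.filter fun U => U ⊆ S).card ≤ (2 * w + 1) ^ K :=
            le_trans (Finset.card_le_card fun U hU => by
              obtain ⟨h1, h2⟩ := Finset.mem_filter.1 hU
              exact Finset.mem_filter.2 ⟨Finset.mem_powerset.2 h2, (Finset.mem_filter.1 h1).2.1⟩)
              (card_small_subsets_le h5.le)
          exact_mod_cast hle
      _ ≤ ((2 * w + 1 : ℕ) : ℝ) ^ K := by
          rw [← Finset.mul_sum]
          exact mul_le_of_le_one_right (by positivity)
            ((sum_sq_coef hb f _).trans (avg_sq_le_one hb hf univ ∅))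
  · exact (Finset.sum_le_sum_of_subset_of_nonneg (fun U hU => Finset.mem_filter.2
      ⟨Finset.mem_univ U, (Finset.mem_filter.1 hU).2.1⟩) fun U _ _ =>
      bigProb_nonneg hq0 hq1 hb M f U).trans (sum_bigProb_le hq0 hq1 hb M K f)

/-- The mass of a band. -/
lemma mass_le [Fintype V] {b γ η : ℝ} (hb : Mid b) (hγ : 0 < γ) (hη : 0 ≤ η) {M m k r w : ℕ}
    (hM : 0 < M) {vs : ι → Finset V} {f : Finset ι → ℝ} (hf : ∀ z, f z = 0 ∨ f z = 1)
    (hsym : Symmetric vs f) (hk : 1 ≤ k)
    (hfib : ∀ A : Finset V, (univ.filter fun a => vs a ⊆ A).card ≤ m * A.card ^ r)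
    (hmk : 2 * (m * (k - 1) ^ r) ≤ w)
    (hrare : ∀ U : Finset ι, Good vs (256 * k) k U →
      ((M + 1 : ℕ) : ℝ) ^ (256 * k) ≤ η ^ 4 * ((Fintype.card V).choose (span vs U).card : ℝ)) :
    mass b f w ≤ 16 * (1 / (γ * M) + (5 : ℝ) ^ (256 * k) * Real.sqrt γ) * totInf b f +
      8 * ((5 : ℝ) ^ w * η * ((((2 * w + 1 : ℕ) : ℝ) ^ (256 * k) +
        ((M + 1 : ℕ) : ℝ) ^ (256 * k)) / 2)) := by
  obtain ⟨hq0, hq1⟩ := dens_mem (k := k) (w := w)
  set q := dens k w with hq
  set c := 1 / (γ * M) + (5 : ℝ) ^ (256 * k) * Real.sqrt γ with hc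
  have hc0 : 0 ≤ c := by rw [hc]; positivity
  have h1 := test_lower hb vs f hk hfib hmk
  have h2 : ex q (fun J => ex b (fun x =>
      ∑ U ∈ tests vs k J, part b J f (band ι w) U x * cf b J f U x)) ≤
      1 / 8 * mass b f w + ex q (fun J => ex b (fun x =>
        ∑ U ∈ tests vs k J, |part b J f (band ι w) U x| * bigEv b γ M f U J x)) +
        2 * c * ex q (fun J => ex b (fun x => ∑ e ∈ J, rinf b f J e x)) := by
    unfold ex
    rw [← avg_mul_left, ← avg_const q (1 / 8 * mass b f w) (univ : Finset ι) ∅, ← avg_add, ← avg_add]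
    refine avg_mono hq0 hq1 (fun J => ?_) _
    refine (avg_mono hb.pos hb.le_one (fun x => test_pointwise hb hγ hM vs hf k w J x) _).trans ?_
    rw [avg_add, avg_add, avg_mul_left, avg_mul_left]
    refine add_le_add (add_le_add (mul_le_mul_of_nonneg_left ?_ (by norm_num)) le_rfl) le_rfl
    exact ex_part_total hb vs f k w J
  have h3 := big_part_le (γ := γ) (w := w) hb hf hsym hη hrare
  have h4 := mul_le_mul_of_nonneg_left (ex_rinf_le (q := q) hq0 hq1 hb f) hc0
  linarith

end Vale.Agent.P063
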