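import Mathlib.Analysis.SpecialFunctions.Pow.Real
import Mathlib.Algebra.BigOperators.Ring.Finset
import Mathlib.Algebra.BigOperators.Group.Finset.Powerset
import Mathlib.Algebra.Order.Chebyshev
import Mathlib.Data.Fintype.Powerset
import Mathlib.Tactic.LinearCombination

/-!
The biased cube, a point being the finite set of its ones.
-/

namespace Vale.Agent.P063

open Finset

variable {ι : Type*} [DecidableEq ι]

/-- The weight of a pattern `y` on the coordinates `J`. -/
def wt (b : ℝ) (J y : Finset ι) : ℝ := b ^ y.card * (1 - b) ^ (J.card - y.card)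

/-- Resampling the coordinates in `J` with bias `b`. -/
def avg (b : ℝ) (J : Finset ι) (f : Finset ι → ℝ) (x : Finset ι) : ℝ :=
  ∑ y ∈ J.powerset, wt b J y * f ((x \ J) ∪ y)

/-- The expectation for the bias `b`. -/
def ex [Fintype ι] (b : ℝ) (f : Finset ι → ℝ) : ℝ := avg b univ f ∅

/-- Resampling one coordinate. -/
def op (b : ℝ) (i : ι) (f : Finset ι → ℝ) (x : Finset ι) : ℝ :=
  b * f (insert i x) + (1 - b) * f (x.erase i)

omit [DecidableEq ι] in
lemma wt_nonneg {b : ℝ} (h0 : 0 ≤ b) (h1 : b ≤ 1) (J y : Finset ι) : 0 ≤ wt b J y := by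
  unfold wt
  have : (0 : ℝ) ≤ 1 - b := by linarith
  positivity

lemma avg_mono {b : ℝ} (h0 : 0 ≤ b) (h1 : b ≤ 1) {J : Finset ι} {f g : Finset ι → ℝ}
    (h : ∀ z, f z ≤ g z) (x : Finset ι) : avg b J f x ≤ avg b J g x :=
  Finset.sum_le_sum fun y _ => mul_le_mul_of_nonneg_left (h _) (wt_nonneg h0 h1 J y)

lemma avg_nonneg {b : ℝ} (h0 : 0 ≤ b) (h1 : b ≤ 1) {J : Finset ι} {f : Finset ι → ℝ}
    (h : ∀ z, 0 ≤ f z) (x : Finset ι) : 0 ≤ avg b J f x :=
  Finset.sum_nonneg fun y _ => mul_nonneg (wt_nonneg h0 h1 J y) (h _)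

lemma avg_sum {κ : Type*} (b : ℝ) (J : Finset ι) (s : Finset κ) (f : κ → Finset ι → ℝ)
    (x : Finset ι) : avg b J (fun z => ∑ a ∈ s, f a z) x = ∑ a ∈ s, avg b J (f a) x := by
  unfold avg
  simp only [Finset.mul_sum]
  exact Finset.sum_comm

lemma avg_add (b : ℝ) (J : Finset ι) (f g : Finset ι → ℝ) (x : Finset ι) :
    avg b J (fun z => f z + g z) x = avg b J f x + avg b J g x := by
  unfold avg
  simp only [mul_add, Finset.sum_add_distrib]

lemma avg_sub (b : ℝ) (J : Finset ι) (f g : Finset ι → ℝ) (x : Finset ι) :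
    avg b J (fun z => f z - g z) x = avg b J f x - avg b J g x := by
  unfold avg
  simp only [mul_sub, Finset.sum_sub_distrib]

lemma avg_mul_left (b c : ℝ) (J : Finset ι) (f : Finset ι → ℝ) (x : Finset ι) :
    avg b J (fun z => c * f z) x = c * avg b J f x := by
  unfold avg
  rw [Finset.mul_sum]
  exact Finset.sum_congr rfl fun y _ => by ring

omit [DecidableEq ι] in
lemma sum_wt (b : ℝ) (J : Finset ι) : ∑ y ∈ J.powerset, wt b J y = 1 := by
  unfold wt
  rw [Finset.sum_pow_mul_eq_add_pow, show b + (1 - b) = 1 by ring, one_pow]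

lemma avg_const (b c : ℝ) (J : Finset ι) (x : Finset ι) : avg b J (fun _ => c) x = c := by
  unfold avg
  rw [← Finset.sum_mul, sum_wt, one_mul]

lemma avg_congr {b : ℝ} {J : Finset ι} {f g : Finset ι → ℝ} {x : Finset ι}
    (h : ∀ y ⊆ J, f ((x \ J) ∪ y) = g ((x \ J) ∪ y)) : avg b J f x = avg b J g x :=
  Finset.sum_congr rfl fun y hy => by rw [h y (Finset.mem_powerset.1 hy)]

/-- Only the coordinates outside `J` of the base point matter. -/
lemma avg_out {b : ℝ} {J : Finset ι} (f : Finset ι → ℝ) {x x' : Finset ι} (h : x \ J = x' \ J) :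
    avg b J f x = avg b J f x' := by
  unfold avg
  rw [h]

lemma avg_empty (b : ℝ) (f : Finset ι → ℝ) : avg b (∅ : Finset ι) f = f := by
  funext x
  simp [avg, wt]

lemma avg_insert {b : ℝ} {J : Finset ι} {i : ι} (hi : i ∉ J) (f : Finset ι → ℝ) :
    avg b (insert i J) f = op b i (avg b J f) := by
  funext x
  unfold op avg
  rw [Finset.sum_powerset_insert hi, Finset.mul_sum, Finset.mul_sum, add_comm]
  congr 1
  · refine Finset.sum_congr rfl fun y hy => ?_
    have hyi : i ∉ y := fun h => hi (Finset.mem_powerset.1 hy h)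
    have hyJ : y.card ≤ J.card := Finset.card_le_card (Finset.mem_powerset.1 hy)
    have e : (x \ insert i J) ∪ insert i y = (insert i x \ J) ∪ y := by
      ext a
      simp only [Finset.mem_union, Finset.mem_sdiff, Finset.mem_insert]
      by_cases h : a = i
      · subst h; simp [hi]
      · simp [h]
    rw [e, wt, wt, Finset.card_insert_of_notMem hi, Finset.card_insert_of_notMem hyi,
      Nat.succ_sub_succ_eq_sub, pow_succ]
    ring
  · refine Finset.sum_congr rfl fun y hy => ?_
    have hyJ : y.card ≤ J.card := Finset.card_le_card (Finset.mem_powerset.1 hy)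
    have e : (x \ insert i J) ∪ y = (x.erase i \ J) ∪ y := by
      ext a
      simp only [Finset.mem_union, Finset.mem_sdiff, Finset.mem_insert, Finset.mem_erase]
      tauto
    rw [e, wt, wt, Finset.card_insert_of_notMem hi,
      show J.card + 1 - y.card = (J.card - y.card) + 1 by omega, pow_succ]
    ring

lemma op_comm (b : ℝ) (i j : ι) (f : Finset ι → ℝ) : op b i (op b j f) = op b j (op b i f) := by
  funext x
  unfold op
  by_cases h : i = j
  · subst h; rfl
  · rw [Finset.insert_comm, Finset.erase_right_comm,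
      Finset.erase_insert_of_ne h, Finset.erase_insert_of_ne (Ne.symm h)]
    ring

lemma op_idem (b : ℝ) (i : ι) (f : Finset ι → ℝ) : op b i (op b i f) = op b i f := by
  funext x
  unfold op
  rw [Finset.insert_idem, Finset.erase_idem, Finset.erase_insert_eq_erase]
  have : insert i (x.erase i) = insert i x := by
    ext a; simp only [Finset.mem_insert, Finset.mem_erase]; tauto
  rw [this]
  ring

lemma avg_op_comm (b : ℝ) (J : Finset ι) (i : ι) (f : Finset ι → ℝ) :
    avg b J (op b i f) = op b i (avg b J f) := by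
  induction J using Finset.induction_on with
  | empty => rw [avg_empty, avg_empty]
  | insert j J hj ih => rw [avg_insert hj, avg_insert hj, ih, op_comm]

lemma avg_op_of_mem (b : ℝ) {J : Finset ι} {i : ι} (hi : i ∈ J) (f : Finset ι → ℝ) :
    avg b J (op b i f) = avg b J f := by
  rw [← Finset.insert_erase hi, avg_insert (Finset.notMem_erase i J),
    avg_insert (Finset.notMem_erase i J), avg_op_comm, op_idem]

lemma avg_avg_of_subset (b : ℝ) {J K : Finset ι} (hJK : J ⊆ K) (f : Finset ι → ℝ) :
    avg b K (avg b J f) = avg b K f := by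
  induction J using Finset.induction_on with
  | empty => rw [avg_empty]
  | insert j J hj ih =>
    rw [avg_insert hj, avg_op_of_mem b (hJK (Finset.mem_insert_self j J)),
      ih ((Finset.subset_insert j J).trans hJK)]

lemma avg_union {b : ℝ} {J K : Finset ι} (h : Disjoint J K) (f : Finset ι → ℝ) :
    avg b (J ∪ K) f = avg b J (avg b K f) := by
  induction J using Finset.induction_on with
  | empty => rw [avg_empty, Finset.empty_union]
  | insert j J hj ih =>
    obtain ⟨hjK, hJK⟩ := Finset.disjoint_insert_left.1 h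
    rw [Finset.insert_union, avg_insert (by simp [hj, hjK]), avg_insert hj, ih hJK]

/-- A function not depending on `J` is fixed by resampling `J`. -/
lemma avg_of_indep {b : ℝ} {J : Finset ι} {f : Finset ι → ℝ}
    (h : ∀ z, ∀ y ⊆ J, f ((z \ J) ∪ y) = f z) : avg b J f = f := by
  funext x
  rw [avg_congr (g := fun _ => f x) (fun y hy => h x y hy), avg_const]

/-- A factor not depending on `J` comes out. -/
lemma avg_mul_indep {b : ℝ} {J : Finset ι} {f g : Finset ι → ℝ}
    (h : ∀ z, ∀ y ⊆ J, f ((z \ J) ∪ y) = f z) (x : Finset ι) :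
    avg b J (fun z => f z * g z) x = f x * avg b J g x := by
  rw [← avg_mul_left]
  exact avg_congr fun y hy => by rw [h x y hy]

/-- The product formula. -/
lemma avg_prod (b : ℝ) (h : ι → Bool → ℝ) :
    ∀ (J A : Finset ι) (x : Finset ι),
      avg b J (fun z => ∏ i ∈ A, h i (decide (i ∈ z))) x =
        (∏ i ∈ A ∩ J, (b * h i true + (1 - b) * h i false)) *
          ∏ i ∈ A \ J, h i (decide (i ∈ x)) := by
  intro J
  induction J using Finset.induction_on with
  | empty => intro A x; simp [avg_empty]
  | insert j J hj ih =>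
    intro A x
    rw [avg_insert hj]
    unfold op
    rw [ih, ih]
    by_cases hA : j ∈ A
    · have e1 : A ∩ insert j J = insert j (A ∩ J) := by
        ext a; simp only [Finset.mem_inter, Finset.mem_insert]; constructor
        · rintro ⟨h1, h2 | h2⟩
          · exact Or.inl h2
          · exact Or.inr ⟨h1, h2⟩
        · rintro (h1 | ⟨h1, h2⟩)
          · exact ⟨h1 ▸ hA, Or.inl h1⟩
          · exact ⟨h1, Or.inr h2⟩
      have e2 : A \ J = insert j (A \ insert j J) := by
        ext a; simp only [Finset.mem_sdiff, Finset.mem_insert]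
        by_cases h1 : a = j
        · subst h1; simp [hA, hj]
        · simp [h1]
      have hn1 : j ∉ A ∩ J := fun h' => hj (Finset.mem_inter.1 h').2
      have hn2 : j ∉ A \ insert j J := by simp
      rw [e1, e2, Finset.prod_insert hn1, Finset.prod_insert hn2, Finset.prod_insert hn2]
      have e3 : ∀ y : Finset ι, (∀ a, a ≠ j → (a ∈ y ↔ a ∈ x)) →
          ∏ i ∈ A \ insert j J, h i (decide (i ∈ y)) =
            ∏ i ∈ A \ insert j J, h i (decide (i ∈ x)) := by
        intro y hy
        refine Finset.prod_congr rfl fun a ha => ?_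
        have : a ≠ j := fun h' => hn2 (h' ▸ ha)
        simp only [hy a this]
      rw [e3 (insert j x) (fun a ha => by simp [ha]), e3 (x.erase j) (fun a ha => by simp [ha])]
      simp only [Finset.mem_insert_self, decide_true, Finset.notMem_erase, decide_false]
      ring
    · have e1 : A ∩ insert j J = A ∩ J := by
        ext a; simp only [Finset.mem_inter, Finset.mem_insert]
        constructor
        · rintro ⟨h1, h2 | h2⟩
          · exact absurd (h2 ▸ h1) hA
          · exact ⟨h1, h2⟩
        · rintro ⟨h1, h2⟩; exact ⟨h1, Or.inr h2⟩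
      have e2 : A \ insert j J = A \ J := by
        ext a; simp only [Finset.mem_sdiff, Finset.mem_insert]
        by_cases h1 : a = j
        · subst h1; simp [hA]
        · simp [h1]
      rw [e1, e2]
      have e3 : ∀ y : Finset ι, (∀ a, a ≠ j → (a ∈ y ↔ a ∈ x)) →
          ∏ i ∈ A \ J, h i (decide (i ∈ y)) = ∏ i ∈ A \ J, h i (decide (i ∈ x)) := by
        intro y hy
        refine Finset.prod_congr rfl fun a ha => ?_
        have : a ≠ j := fun h' => hA (h' ▸ (Finset.mem_sdiff.1 ha).1)
        simp only [hy a this]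
      rw [e3 (insert j x) (fun a ha => by simp [ha]), e3 (x.erase j) (fun a ha => by simp [ha])]
      ring

/-- The standard deviation of one coordinate. -/
noncomputable def sd (b : ℝ) : ℝ := Real.sqrt (b * (1 - b))

/-- The normalised coordinate. -/
noncomputable def chi1 (b : ℝ) (v : Bool) : ℝ := cond v ((1 - b) / sd b) (-b / sd b)

/-- The characters. -/
noncomputable def chi (b : ℝ) (S : Finset ι) (x : Finset ι) : ℝ :=
  ∏ i ∈ S, chi1 b (decide (i ∈ x))

/-- The bias is a constant away from the ends. -/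
def Mid (b : ℝ) : Prop := 1 / 4 ≤ b ∧ b ≤ 3 / 4

lemma Mid.pos {b : ℝ} (h : Mid b) : 0 ≤ b := by linarith [h.1]

lemma Mid.le_one {b : ℝ} (h : Mid b) : b ≤ 1 := by linarith [h.2]

lemma Mid.sd_pos {b : ℝ} (h : Mid b) : 0 < sd b :=
  Real.sqrt_pos.2 (mul_pos (by linarith [h.1]) (by linarith [h.2]))

lemma sd_sq {b : ℝ} (h : Mid b) : sd b ^ 2 = b * (1 - b) :=
  Real.sq_sqrt (mul_nonneg h.pos (by linarith [h.le_one]))

lemma chi1_mean {b : ℝ} (h : Mid b) : b * chi1 b true + (1 - b) * chi1 b false = 0 := by
  have := h.sd_pos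
  simp only [chi1, cond_true, cond_false]
  field_simp
  ring

lemma chi1_sq {b : ℝ} (h : Mid b) :
    b * chi1 b true ^ 2 + (1 - b) * chi1 b false ^ 2 = 1 := by
  have hs := h.sd_pos
  simp only [chi1, cond_true, cond_false, div_pow]
  rw [sd_sq h]
  have h1 : 0 < b := by linarith [h.1]
  have h2 : 0 < 1 - b := by linarith [h.2]
  field_simp
  ring

lemma avg_chi_mul {b : ℝ} (hb : Mid b) (J S U : Finset ι) (hU : U ⊆ J) (x : Finset ι) :
    avg b J (fun z => chi b S z * chi b U z) x = if S ∩ J = U then chi b (S \ J) x else 0 := by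
  set h : ι → Bool → ℝ := fun i v =>
    (if i ∈ S then chi1 b v else 1) * (if i ∈ U then chi1 b v else 1) with hh
  have e : ∀ z, chi b S z * chi b U z = ∏ i ∈ S ∪ U, h i (decide (i ∈ z)) := by
    intro z
    simp only [hh, Finset.prod_mul_distrib]
    unfold chi
    congr 1
    · rw [← Finset.prod_filter]; congr 1; ext a; simp only [Finset.mem_filter, Finset.mem_union]; tauto
    · rw [← Finset.prod_filter]; congr 1; ext a; simp only [Finset.mem_filter, Finset.mem_union]; tauto
  simp only [e]
  rw [avg_prod]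
  have e2 : ∏ i ∈ (S ∪ U) \ J, h i (decide (i ∈ x)) = chi b (S \ J) x := by
    have : (S ∪ U) \ J = S \ J := by
      ext a; simp only [Finset.mem_sdiff, Finset.mem_union]
      constructor
      · rintro ⟨h1 | h1, h2⟩
        · exact ⟨h1, h2⟩
        · exact absurd (hU h1) h2
      · rintro ⟨h1, h2⟩; exact ⟨Or.inl h1, h2⟩
    rw [this]
    refine Finset.prod_congr rfl fun a ha => ?_
    obtain ⟨h1, h2⟩ := Finset.mem_sdiff.1 ha
    simp [hh, h1, show a ∉ U from fun h' => h2 (hU h')]
  rw [e2]
  have e1 : ∏ i ∈ (S ∪ U) ∩ J, (b * h i true + (1 - b) * h i false) =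
      if S ∩ J = U then 1 else 0 := by
    by_cases hSU : S ∩ J = U
    · rw [if_pos hSU]
      refine Finset.prod_eq_one fun a ha => ?_
      have h1 : a ∈ S ∧ a ∈ U := by
        rw [← hSU] at ha ⊢
        simp only [Finset.mem_inter, Finset.mem_union] at ha ⊢
        tauto
      simp only [hh, h1.1, h1.2, if_true, ← sq]
      exact chi1_sq hb
    · rw [if_neg hSU, Finset.prod_eq_zero_iff]
      obtain ⟨a, ha⟩ : ∃ a, ¬ (a ∈ S ∩ J ↔ a ∈ U) := not_forall.1 fun h' => hSU (Finset.ext h')
      rw [Finset.mem_inter] at ha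
      by_cases haU : a ∈ U
      · have : a ∉ S := fun h' => ha ⟨fun _ => haU, fun _ => ⟨h', hU haU⟩⟩
        refine ⟨a, by simp [haU, hU haU], ?_⟩
        simp only [hh, this, haU, if_true, if_false, one_mul]
        exact chi1_mean hb
      · have : a ∈ S ∧ a ∈ J := by tauto
        refine ⟨a, by simp [this.1, this.2], ?_⟩
        simp only [hh, this.1, haU, if_true, if_false, mul_one]
        exact chi1_mean hb
  rw [e1, ite_mul, one_mul, zero_mul]

lemma avg_chi_mul_self {b : ℝ} (hb : Mid b) {J U V : Finset ι} (hU : U ⊆ J) (hV : V ⊆ J)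
    (x : Finset ι) :
    avg b J (fun z => chi b U z * chi b V z) x = if U = V then 1 else 0 := by
  rw [avg_chi_mul hb J U V hV, Finset.inter_eq_left.2 hU, Finset.sdiff_eq_empty_iff_subset.2 hU]
  simp [chi]

section Fin

variable [Fintype ι]

lemma ex_avg (b : ℝ) (J : Finset ι) (f : Finset ι → ℝ) : ex b (avg b J f) = ex b f := by
  unfold ex
  rw [avg_avg_of_subset b (Finset.subset_univ J)]

lemma ex_const (b c : ℝ) : ex b (fun _ : Finset ι => c) = c := avg_const _ _ _ _

lemma ex_eq_sum (b : ℝ) (f : Finset ι → ℝ) :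
    ex b f = ∑ y : Finset ι, wt b univ y * f y := by
  unfold ex avg
  rw [Finset.powerset_univ]
  simp

/-- The Fourier coefficient. -/
noncomputable def coef (b : ℝ) (f : Finset ι → ℝ) (S : Finset ι) : ℝ :=
  ex b fun z => f z * chi b S z

lemma sum_chi_mul {b : ℝ} (hb : Mid b) (x y : Finset ι) :
    wt b univ y * ∑ S : Finset ι, chi b S x * chi b S y = if x = y then 1 else 0 := by
  have hs := hb.sd_pos
  have h1 : 0 < b := by linarith [hb.1]
  have h2 : 0 < 1 - b := by linarith [hb.2]
  have e : ∑ S : Finset ι, chi b S x * chi b S y =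
      ∏ i : ι, (1 + chi1 b (decide (i ∈ x)) * chi1 b (decide (i ∈ y))) := by
    rw [Finset.prod_one_add, Finset.powerset_univ]
    exact Finset.sum_congr rfl fun S _ => by simp only [chi, Finset.prod_mul_distrib]
  have hw : wt b univ y = ∏ i : ι, (if i ∈ y then b else 1 - b) := by
    rw [Finset.prod_ite, Finset.prod_const, Finset.prod_const, wt]
    congr 2
    · congr 1; ext a; simp
    · rw [Finset.card_univ, ← Finset.card_compl]; congr 1; ext a; simp
  rw [e, hw, ← Finset.prod_mul_distrib]
  have hf : ∀ i : ι, (if i ∈ y then b else 1 - b) *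
      (1 + chi1 b (decide (i ∈ x)) * chi1 b (decide (i ∈ y))) =
      if (i ∈ x ↔ i ∈ y) then 1 else 0 := by
    intro i
    have hsq := sd_sq hb
    by_cases hx : i ∈ x <;> by_cases hy : i ∈ y <;>
      · simp only [hx, hy, if_true, if_false, decide_true, decide_false, chi1, cond_true,
          cond_false, iff_false, iff_true, not_true]
        field_simp
        rw [hsq]
        ring
  simp only [hf]
  rw [Finset.prod_boole]
  simp [Finset.ext_iff]

lemma eq_sum_coef {b : ℝ} (hb : Mid b) (f : Finset ι → ℝ) (x : Finset ι) :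
    f x = ∑ S : Finset ι, coef b f S * chi b S x := by
  simp only [coef, ex_eq_sum, Finset.sum_mul]
  rw [Finset.sum_comm]
  calc f x = ∑ y : Finset ι, f y * (if x = y then 1 else 0) := by simp
    _ = _ := Finset.sum_congr rfl fun y _ => by
        rw [← sum_chi_mul hb x y, Finset.mul_sum, Finset.mul_sum]
        exact Finset.sum_congr rfl fun S _ => by ring

end Fin

end Vale.Agent.P063
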