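import Vale.Agent.P063.Cube
import Mathlib.Analysis.SpecialFunctions.Log.Basic

/-!
Hypergraph properties, thresholds, and influences.
-/

namespace Vale.Agent.P063

open Finset

/-- An edge: an `r`-element subset of the vertex set `Fin n`. -/
abbrev Edge (n r : ℕ) : Type := {s : Finset (Fin n) // s.card = r}

/-- The action of a vertex permutation on edges. -/
def edgePerm {n r : ℕ} (σ : Equiv.Perm (Fin n)) : Equiv.Perm (Edge n r) :=
  σ.finsetCongr.subtypeEquiv fun s => by simp

/-- A family of hypergraphs that is invariant under relabelling the vertices. -/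
def Invariant {n r : ℕ} (P : Set (Finset (Edge n r))) : Prop :=
  ∀ σ : Equiv.Perm (Fin n), ∀ H, H ∈ P → H.map (edgePerm σ).toEmbedding ∈ P

/-- The probability that the random hypergraph with edge probability `p` lies in `P`. -/
noncomputable def mu {n r : ℕ} (p : ℝ) (P : Set (Finset (Edge n r))) : ℝ :=
  ∑ H : Finset (Edge n r), P.indicator (fun H => p ^ H.card * (1 - p) ^ Hᶜ.card) H

/-- The least probability at which the measure reaches `a`. -/
noncomputable def threshold {n r : ℕ} (P : Set (Finset (Edge n r))) (a : ℝ) : ℝ :=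
  sInf {p : ℝ | 0 ≤ p ∧ p ≤ 1 ∧ a ≤ mu p P}

/-- The threshold width. -/
noncomputable def width {n r : ℕ} (P : Set (Finset (Edge n r))) (ε : ℝ) : ℝ :=
  threshold P (1 - ε) - threshold P ε

variable {ι : Type*} [DecidableEq ι]

/-- Coordinate `i` is pivotal. -/
noncomputable def piv (i : ι) (f : Finset ι → ℝ) (z : Finset ι) : ℝ :=
  if f (insert i z) = f (z.erase i) then 0 else 1

/-- The total influence for the bias `b`. -/
noncomputable def totInf [Fintype ι] (b : ℝ) (f : Finset ι → ℝ) : ℝ := ∑ i, ex b (piv i f)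

/-- The action of a vertex permutation when every edge consists of `m` bits. -/
def bitPerm {n r m : ℕ} (σ : Equiv.Perm (Fin n)) : Equiv.Perm (Edge n r × Fin m) :=
  (edgePerm σ).prodCongr (Equiv.refl _)

/-- The lower bound for influences of symmetric functions. -/
def InfluenceBound (r : ℕ) : Prop :=
  ∃ c : ℝ, 0 < c ∧ ∀ ε : ℝ, 0 < ε → ∃ n0 : ℕ, ∀ n ≥ n0, ∀ m : ℕ, 1 ≤ m →
    (m : ℝ) ≤ 8 * Real.log (Real.log n) + 8 →
    ∀ b : ℝ, Mid b → ∀ f : Finset (Edge n r × Fin m) → ℝ, (∀ z, f z = 0 ∨ f z = 1) →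
    (∀ σ z, f (z.map (bitPerm σ).toEmbedding) = f z) →
    ε ≤ ex b f → ex b f ≤ 1 - ε →
    c * ε * Real.log n ^ ((r : ℝ) / ((r : ℝ) - 1)) / m ≤ totInf b f

end Vale.Agent.P063
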