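import Vale.Agent.P063.Defs

/-!
Hypercontractivity, Bessel's inequality and the basic influence inequality.
-/

namespace Vale.Agent.P063

open Finset

variable {ι : Type*} [DecidableEq ι]

lemma sum_mul_ind_pow_four {κ : Type*} (s : Finset κ) {w f p : κ → ℝ} (hw : ∀ a ∈ s, 0 ≤ w a)
    (hp : ∀ a ∈ s, p a = 0 ∨ p a = 1) (hf : ∀ a ∈ s, 0 ≤ f a) :
    (∑ a ∈ s, w a * (f a * p a)) ^ 4 ≤
      (∑ a ∈ s, w a * f a ^ 4) * (∑ a ∈ s, w a * p a) ^ 3 := by
  have hp0 : ∀ a ∈ s, 0 ≤ p a := fun a ha => by rcases hp a ha with h | h <;> rw [h] <;> norm_num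
  have hpp : ∀ a ∈ s, p a * p a = p a := fun a ha => by
    rcases hp a ha with h | h <;> rw [h] <;> norm_num
  set A := ∑ a ∈ s, w a * (f a * p a) with hA
  set B := ∑ a ∈ s, w a * (f a ^ 2 * p a) with hB
  set C := ∑ a ∈ s, w a * f a ^ 4 with hC
  set P := ∑ a ∈ s, w a * p a with hP
  have hP0 : 0 ≤ P := Finset.sum_nonneg fun a ha => mul_nonneg (hw a ha) (hp0 a ha)
  have hC0 : 0 ≤ C := Finset.sum_nonneg fun a ha => mul_nonneg (hw a ha) (by positivity)
  have hB0 : 0 ≤ B := Finset.sum_nonneg fun a ha =>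
    mul_nonneg (hw a ha) (mul_nonneg (by positivity) (hp0 a ha))
  have h1 : A ^ 2 ≤ B * P :=
    Finset.sum_sq_le_sum_mul_sum_of_sq_le_mul s
      (fun a ha => mul_nonneg (hw a ha) (mul_nonneg (by positivity) (hp0 a ha)))
      (fun a ha => mul_nonneg (hw a ha) (hp0 a ha))
      (fun a _ => le_of_eq (by ring))
  have h2 : B ^ 2 ≤ C * P :=
    Finset.sum_sq_le_sum_mul_sum_of_sq_le_mul s
      (fun a ha => mul_nonneg (hw a ha) (by positivity))
      (fun a ha => mul_nonneg (hw a ha) (hp0 a ha))
      (fun a ha => le_of_eq (by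
        rw [show (w a * (f a ^ 2 * p a)) ^ 2 = w a ^ 2 * f a ^ 4 * (p a * p a) by ring, hpp a ha]
        ring))
  calc A ^ 4 = (A ^ 2) ^ 2 := by ring
    _ ≤ (B * P) ^ 2 := pow_le_pow_left₀ (sq_nonneg A) h1 2
    _ = B ^ 2 * P ^ 2 := by ring
    _ ≤ C * P * P ^ 2 := mul_le_mul_of_nonneg_right h2 (sq_nonneg P)
    _ = C * P ^ 3 := by ring

lemma chi_insert {b : ℝ} {i : ι} {S : Finset ι} (h : i ∉ S) (x : Finset ι) :
    chi b (insert i S) x = chi1 b (decide (i ∈ x)) * chi b S x := by
  rw [chi, Finset.prod_insert h]; rfl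

lemma chi_congr {b : ℝ} {S x y : Finset ι} (h : ∀ i ∈ S, (i ∈ x ↔ i ∈ y)) :
    chi b S x = chi b S y :=
  Finset.prod_congr rfl fun i hi => by simp only [h i hi]

lemma chi_outer {b : ℝ} {J S x y : Finset ι} (hS : Disjoint S J) (hy : y ⊆ J) :
    chi b S ((x \ J) ∪ y) = chi b S x := by
  refine chi_congr fun i hi => ?_
  have : i ∉ J := Finset.disjoint_left.1 hS hi
  have hiy : i ∉ y := fun h => this (hy h)
  simp [this, hiy]

/-- The pointwise fourth moment inequality of one coordinate. -/
lemma one_coord {b : ℝ} (hb : Mid b) (A B : ℝ) :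
    b * (A + chi1 b true * B) ^ 4 + (1 - b) * (A + chi1 b false * B) ^ 4 ≤
      A ^ 4 + 10 * (A ^ 2 * B ^ 2) + 5 * B ^ 4 := by
  have hs := hb.sd_pos
  have hsq := sd_sq hb
  have hmean := chi1_mean hb
  have hvar := chi1_sq hb
  have hb1 : 3 / 16 ≤ b * (1 - b) := by nlinarith [hb.1, hb.2]
  set u := chi1 b true with hu
  set v := chi1 b false with hv
  set g3 := b * u ^ 3 + (1 - b) * v ^ 3 with hg3
  set g4 := b * u ^ 4 + (1 - b) * v ^ 4 with hg4
  have hu2 : u ^ 2 = (1 - b) / b := by
    simp only [hu, chi1, cond_true, div_pow, hsq]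
    field_simp
  have hv2 : v ^ 2 = b / (1 - b) := by
    simp only [hv, chi1, cond_false, div_pow, hsq]
    have : 0 < 1 - b := by linarith [hb.2]
    have : 0 < b := by linarith [hb.1]
    field_simp
  have h4 : g4 ≤ 7 / 3 := by
    rw [hg4, show u ^ 4 = (u ^ 2) ^ 2 by ring, show v ^ 4 = (v ^ 2) ^ 2 by ring, hu2, hv2]
    have h1 : 0 < 1 - b := by linarith [hb.2]
    have h0 : 0 < b := by linarith [hb.1]
    have e : b * ((1 - b) / b) ^ 2 + (1 - b) * (b / (1 - b)) ^ 2 =
        (1 - 3 * (b * (1 - b))) / (b * (1 - b)) := by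
      field_simp
      ring
    rw [e, div_le_iff₀ (mul_pos h0 h1)]
    linarith
  have h3 : g3 ^ 2 ≤ g4 := by
    have h1 : 0 ≤ b := hb.pos
    have h2 : 0 ≤ 1 - b := by linarith [hb.le_one]
    nlinarith [mul_nonneg (mul_nonneg h1 h2) (sq_nonneg (u ^ 2 * v - v ^ 2 * u))]
  have habs : |g3| ≤ 2 := abs_le_of_sq_le_sq (by linarith) (by norm_num)
  have hg3' := abs_le.1 habs
  have e : b * (A + u * B) ^ 4 + (1 - b) * (A + v * B) ^ 4 =
      A ^ 4 + 6 * (A ^ 2 * B ^ 2) + 4 * g3 * (A * B ^ 3) + g4 * B ^ 4 := by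
    rw [hg3, hg4]
    linear_combination (4 * A ^ 3 * B) * hmean + (6 * A ^ 2 * B ^ 2) * hvar
  rw [e]
  have hx : 4 * g3 * (A * B ^ 3) ≤ 4 * (A ^ 2 * B ^ 2) + g3 ^ 2 * B ^ 4 := by
    nlinarith [sq_nonneg (2 * A * B - g3 * B ^ 2)]
  have hB4 : 0 ≤ B ^ 4 := by positivity
  nlinarith

/-- Hypercontractivity for polynomials. -/
lemma hyper {b : ℝ} (hb : Mid b) :
    ∀ (J : Finset ι) (c : Finset ι → ℝ),
      ∑ y ∈ J.powerset, wt b J y * (∑ S ∈ J.powerset, c S * chi b S y) ^ 4 ≤
        (∑ S ∈ J.powerset, (5 : ℝ) ^ S.card * c S ^ 2) ^ 2 := by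
  intro J
  induction J using Finset.induction_on with
  | empty => intro c; simp [wt, chi, ← pow_mul]
  | insert i J hi ih =>
    intro c
    set A := fun y => ∑ S ∈ J.powerset, c S * chi b S y with hA
    set B := fun y => ∑ S ∈ J.powerset, c (insert i S) * chi b S y with hB
    set X := ∑ S ∈ J.powerset, (5 : ℝ) ^ S.card * c S ^ 2 with hX
    set Y := ∑ S ∈ J.powerset, (5 : ℝ) ^ S.card * c (insert i S) ^ 2 with hY
    have hcard : ∀ S ∈ J.powerset, (insert i S).card = S.card + 1 := fun S hS =>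
      Finset.card_insert_of_notMem fun h => hi (Finset.mem_powerset.1 hS h)
    have hrhs : ∑ S ∈ (insert i J).powerset, (5 : ℝ) ^ S.card * c S ^ 2 = X + 5 * Y := by
      rw [Finset.sum_powerset_insert hi, hX, hY, Finset.mul_sum]
      congr 1
      refine Finset.sum_congr rfl fun S hS => ?_
      rw [hcard S hS, pow_succ]
      ring
    have hin : ∀ y : Finset ι, ∑ S ∈ (insert i J).powerset, c S * chi b S y =
        A y + chi1 b (decide (i ∈ y)) * B y := by
      intro y
      rw [Finset.sum_powerset_insert hi, hA, hB, Finset.mul_sum]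
      congr 1
      refine Finset.sum_congr rfl fun S hS => ?_
      rw [chi_insert fun h => hi (Finset.mem_powerset.1 hS h)]
      ring
    have hinv : ∀ S ∈ J.powerset, ∀ y ∈ J.powerset, chi b S (insert i y) = chi b S y := by
      intro S hS y _
      refine chi_congr fun a ha => ?_
      have : a ≠ i := fun h => hi (h ▸ Finset.mem_powerset.1 hS ha)
      simp [this]
    rw [hrhs, Finset.sum_powerset_insert hi]
    simp only [hin]
    rw [← Finset.sum_add_distrib]
    calc ∑ y ∈ J.powerset, (wt b (insert i J) y * (A y + chi1 b (decide (i ∈ y)) * B y) ^ 4 +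
          wt b (insert i J) (insert i y) *
            (A (insert i y) + chi1 b (decide (i ∈ insert i y)) * B (insert i y)) ^ 4)
        ≤ ∑ y ∈ J.powerset, wt b J y * (A y ^ 4 + 10 * (A y ^ 2 * B y ^ 2) + 5 * B y ^ 4) := by
          refine Finset.sum_le_sum fun y hy => ?_
          have hyJ := Finset.mem_powerset.1 hy
          have hiy : i ∉ y := fun h => hi (hyJ h)
          have hA' : A (insert i y) = A y :=
            Finset.sum_congr rfl fun S hS => by rw [hinv S hS y hy]
          have hB' : B (insert i y) = B y :=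
            Finset.sum_congr rfl fun S hS => by rw [hinv S hS y hy]
          have hw1 : wt b (insert i J) y = (1 - b) * wt b J y := by
            have := Finset.card_le_card hyJ
            rw [wt, wt, Finset.card_insert_of_notMem hi,
              show J.card + 1 - y.card = (J.card - y.card) + 1 by omega, pow_succ]
            ring
          have hw2 : wt b (insert i J) (insert i y) = b * wt b J y := by
            rw [wt, wt, Finset.card_insert_of_notMem hi, Finset.card_insert_of_notMem hiy,
              Nat.succ_sub_succ_eq_sub, pow_succ]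
            ring
          rw [hA', hB', hw1, hw2]
          simp only [hiy, decide_false, Finset.mem_insert_self, decide_true]
          calc (1 - b) * wt b J y * (A y + chi1 b false * B y) ^ 4 +
                b * wt b J y * (A y + chi1 b true * B y) ^ 4
              = wt b J y * (b * (A y + chi1 b true * B y) ^ 4 +
                  (1 - b) * (A y + chi1 b false * B y) ^ 4) := by ring
            _ ≤ _ := mul_le_mul_of_nonneg_left (one_coord hb _ _)
                  (wt_nonneg hb.pos hb.le_one J y)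
      _ = ∑ y ∈ J.powerset, wt b J y * A y ^ 4 +
            10 * ∑ y ∈ J.powerset, wt b J y * (A y ^ 2 * B y ^ 2) +
            5 * ∑ y ∈ J.powerset, wt b J y * B y ^ 4 := by
          rw [Finset.mul_sum, Finset.mul_sum, ← Finset.sum_add_distrib, ← Finset.sum_add_distrib]
          exact Finset.sum_congr rfl fun y _ => by ring
      _ ≤ (X + 5 * Y) ^ 2 := by
          have h1 : ∑ y ∈ J.powerset, wt b J y * A y ^ 4 ≤ X ^ 2 := ih c
          have h2 : ∑ y ∈ J.powerset, wt b J y * B y ^ 4 ≤ Y ^ 2 := ih fun S => c (insert i S)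
          have hw := fun y (_ : y ∈ J.powerset) => wt_nonneg hb.pos hb.le_one J y
          have hX0 : 0 ≤ X := Finset.sum_nonneg fun S _ => by positivity
          have hY0 : 0 ≤ Y := Finset.sum_nonneg fun S _ => by positivity
          have h3 : (∑ y ∈ J.powerset, wt b J y * (A y ^ 2 * B y ^ 2)) ^ 2 ≤
              (∑ y ∈ J.powerset, wt b J y * A y ^ 4) * ∑ y ∈ J.powerset, wt b J y * B y ^ 4 :=
            Finset.sum_sq_le_sum_mul_sum_of_sq_le_mul _
              (fun y hy => mul_nonneg (hw y hy) (by positivity))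
              (fun y hy => mul_nonneg (hw y hy) (by positivity))
              (fun y _ => le_of_eq (by ring))
          have h4 : (∑ y ∈ J.powerset, wt b J y * (A y ^ 2 * B y ^ 2)) ^ 2 ≤ (X * Y) ^ 2 := by
            refine h3.trans ?_
            rw [mul_pow]
            exact mul_le_mul h1 h2 (Finset.sum_nonneg fun y hy => mul_nonneg (hw y hy) (by positivity))
              (sq_nonneg X)
          have h5 : ∑ y ∈ J.powerset, wt b J y * (A y ^ 2 * B y ^ 2) ≤ X * Y :=
            (abs_le_of_sq_le_sq' h4 (mul_nonneg hX0 hY0)).2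
          nlinarith [sq_nonneg Y]

/-- Hypercontractivity under resampling. -/
lemma hyper_avg {b : ℝ} (hb : Mid b) {J : Finset ι} (Us : Finset (Finset ι))
    (hUs : ∀ U ∈ Us, U ⊆ J) (c : Finset ι → ℝ) (x : Finset ι) :
    avg b J (fun z => (∑ U ∈ Us, c U * chi b U z) ^ 4) x ≤
      (∑ U ∈ Us, (5 : ℝ) ^ U.card * c U ^ 2) ^ 2 := by
  have hsub : Us ⊆ J.powerset := fun U hU => Finset.mem_powerset.2 (hUs U hU)
  set d : Finset ι → ℝ := fun U => if U ∈ Us then c U else 0 with hd
  have h := hyper hb J d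
  have hpoly : ∀ y, ∑ U ∈ J.powerset, d U * chi b U y = ∑ U ∈ Us, c U * chi b U y := by
    intro y
    rw [← Finset.sum_subset hsub fun U _ h' => by simp [hd, h']]
    exact Finset.sum_congr rfl fun U hU => by simp [hd, hU]
  have hnorm : ∑ U ∈ J.powerset, (5 : ℝ) ^ U.card * d U ^ 2 =
      ∑ U ∈ Us, (5 : ℝ) ^ U.card * c U ^ 2 := by
    rw [← Finset.sum_subset hsub fun U _ h' => by simp [hd, h']]
    exact Finset.sum_congr rfl fun U hU => by simp [hd, hU]
  rw [hnorm] at h
  simp only [hpoly] at h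
  have e : ∀ y ∈ J.powerset, wt b J y * (∑ U ∈ Us, c U * chi b U ((x \ J) ∪ y)) ^ 4 =
      wt b J y * (∑ U ∈ Us, c U * chi b U y) ^ 4 := by
    intro y _
    have : ∀ U ∈ Us, c U * chi b U ((x \ J) ∪ y) = c U * chi b U y := fun U hU => by
      rw [chi_congr (x := (x \ J) ∪ y) (y := y) fun a ha => by simp [hUs U hU ha]]
    rw [Finset.sum_congr rfl this]
  unfold avg
  rw [Finset.sum_congr rfl e]
  exact h

/-- The coefficient at `U` after restricting to `J`. -/
noncomputable def cf (b : ℝ) (J : Finset ι) (f : Finset ι → ℝ) (U x : Finset ι) : ℝ :=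
  avg b J (fun z => f z * chi b U z) x

/-- Bessel's inequality for restrictions. -/
lemma bessel {b : ℝ} (hb : Mid b) {J : Finset ι} (Us : Finset (Finset ι))
    (hUs : ∀ U ∈ Us, U ⊆ J) (f : Finset ι → ℝ) (x : Finset ι) :
    ∑ U ∈ Us, cf b J f U x ^ 2 ≤ avg b J (fun z => f z ^ 2) x := by
  have h := avg_nonneg hb.pos hb.le_one (J := J)
    (f := fun z => (f z - ∑ U ∈ Us, cf b J f U x * chi b U z) ^ 2) (fun z => sq_nonneg _) x
  have e : ∀ z, (f z - ∑ U ∈ Us, cf b J f U x * chi b U z) ^ 2 =
      f z ^ 2 - (∑ U ∈ Us, (2 * cf b J f U x) * (f z * chi b U z) -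
        ∑ U ∈ Us, ∑ V ∈ Us, (cf b J f U x * cf b J f V x) * (chi b U z * chi b V z)) := by
    intro z
    have h1 : ∑ U ∈ Us, (2 * cf b J f U x) * (f z * chi b U z) =
        2 * f z * ∑ U ∈ Us, cf b J f U x * chi b U z := by
      rw [Finset.mul_sum]; exact Finset.sum_congr rfl fun U _ => by ring
    have h2 : ∑ U ∈ Us, ∑ V ∈ Us, (cf b J f U x * cf b J f V x) * (chi b U z * chi b V z) =
        (∑ U ∈ Us, cf b J f U x * chi b U z) * ∑ V ∈ Us, cf b J f V x * chi b V z := by
      rw [Finset.sum_mul_sum]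
      exact Finset.sum_congr rfl fun U _ => Finset.sum_congr rfl fun V _ => by ring
    rw [h1, h2]
    ring
  simp only [e, avg_sub, avg_sum, avg_mul_left] at h
  have e2 : ∑ U ∈ Us, ∑ V ∈ Us, cf b J f U x * cf b J f V x *
      avg b J (fun z => chi b U z * chi b V z) x = ∑ U ∈ Us, cf b J f U x ^ 2 := by
    refine Finset.sum_congr rfl fun U hU => ?_
    calc ∑ V ∈ Us, cf b J f U x * cf b J f V x * avg b J (fun z => chi b U z * chi b V z) x
        = ∑ V ∈ Us, if U = V then cf b J f U x * cf b J f V x else 0 :=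
          Finset.sum_congr rfl fun V hV => by
            rw [avg_chi_mul_self hb (hUs U hU) (hUs V hV)]; simp
      _ = _ := by rw [Finset.sum_ite_eq, if_pos hU, sq]
  have e3 : ∑ U ∈ Us, 2 * cf b J f U x * avg b J (fun z => f z * chi b U z) x =
      2 * ∑ U ∈ Us, cf b J f U x ^ 2 := by
    rw [Finset.mul_sum]
    exact Finset.sum_congr rfl fun U _ => by unfold cf; ring
  rw [e2, e3] at h
  linarith

lemma piv_zero_or_one (e : ι) (f : Finset ι → ℝ) (z : Finset ι) :
    piv e f z = 0 ∨ piv e f z = 1 := by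
  unfold piv; split_ifs <;> simp

lemma piv_nonneg (e : ι) (f : Finset ι → ℝ) (z : Finset ι) : 0 ≤ piv e f z := by
  rcases piv_zero_or_one e f z with h | h <;> rw [h]
  exact zero_le_one

lemma avg_piv_le_one {b : ℝ} (hb : Mid b) (J : Finset ι) (e : ι) (f : Finset ι → ℝ)
    (x : Finset ι) : avg b J (piv e f) x ≤ 1 := by
  refine (avg_mono hb.pos hb.le_one (g := fun _ => 1) (fun z => ?_) x).trans (avg_const _ _ _ _).le
  rcases piv_zero_or_one e f z with h | h <;> rw [h]
  exact zero_le_one

/-- Restricted coefficients through one coordinate are controlled by its influence. -/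
lemma cf_sq_le {b : ℝ} (hb : Mid b) {J : Finset ι} {e : ι} (he : e ∈ J) {K : ℕ}
    (Us : Finset (Finset ι)) (hUs : ∀ U ∈ Us, U ⊆ J ∧ e ∈ U ∧ U.card ≤ K) (f : Finset ι → ℝ)
    (hf : ∀ z, f z = 0 ∨ f z = 1) (x : Finset ι) :
    ∑ U ∈ Us, cf b J f U x ^ 2 ≤
      (5 : ℝ) ^ K * (avg b J (piv e f) x * Real.sqrt (avg b J (piv e f) x)) := by
  set c := fun U => cf b J f U x with hc
  set A := ∑ U ∈ Us, c U ^ 2 with hA
  set P := avg b J (piv e f) x with hP
  set ψ := fun z => ∑ U ∈ Us, c U * chi b (U.erase e) z with hψ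
  set Φ := fun z => f z * ∑ U ∈ Us, c U * chi b U z with hΦ
  have hA1 : A = avg b J Φ x := by
    rw [hΦ]
    simp only [Finset.mul_sum, avg_sum]
    refine Finset.sum_congr rfl fun U _ => ?_
    rw [sq]
    have : (fun z => f z * (c U * chi b U z)) = fun z => c U * (f z * chi b U z) := by
      funext z; ring
    rw [this, avg_mul_left]
    rfl
  have hψe : ∀ z w : Finset ι, z.erase e = w.erase e → ψ z = ψ w := by
    intro z w h
    refine Finset.sum_congr rfl fun U _ => ?_
    congr 1
    refine chi_congr fun a ha => ?_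
    obtain ⟨h1, -⟩ := Finset.mem_erase.1 ha
    have := Finset.ext_iff.1 h a
    simpa [h1] using this
  have hop : ∀ z, |op b e Φ z| ≤ |ψ z| * piv e f z := by
    intro z
    have h1 : ∀ w : Finset ι, ∑ U ∈ Us, c U * chi b U w = chi1 b (decide (e ∈ w)) * ψ w := by
      intro w
      rw [hψ, Finset.mul_sum]
      refine Finset.sum_congr rfl fun U hU => ?_
      have h2 := chi_insert (b := b) (Finset.notMem_erase e U) w
      rw [Finset.insert_erase (hUs U hU).2.1] at h2
      rw [h2]
      ring
    have hval : op b e Φ z = sd b * (f (insert e z) - f (z.erase e)) * ψ z := by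
      unfold op
      simp only [hΦ, h1]
      rw [hψe (insert e z) z (Finset.erase_insert_eq_erase z e),
        hψe (z.erase e) z Finset.erase_idem]
      simp only [Finset.mem_insert_self, decide_true, Finset.notMem_erase, decide_false, chi1,
        cond_true, cond_false]
      have hs := hb.sd_pos
      have hsq := sd_sq hb
      field_simp
      rw [hsq]
      ring
    have hsd : sd b ≤ 1 := Real.sqrt_le_one.2 (by nlinarith [hb.1, hb.2])
    rw [hval, abs_mul, abs_mul, abs_of_pos hb.sd_pos, mul_comm |ψ z|]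
    refine mul_le_mul_of_nonneg_right ?_ (abs_nonneg _)
    refine (mul_le_of_le_one_left (abs_nonneg _) hsd).trans ?_
    unfold piv
    split_ifs with h
    · simp [h]
    · rcases hf (insert e z) with h1' | h1' <;> rcases hf (z.erase e) with h2' | h2' <;>
        rw [h1', h2'] <;> norm_num
  have hA2 : A ≤ avg b J (fun z => |ψ z| * piv e f z) x := by
    rw [hA1, ← avg_op_of_mem b he Φ]
    exact avg_mono hb.pos hb.le_one (fun z => (le_abs_self _).trans (hop z)) x
  have hCS : avg b J (fun z => |ψ z| * piv e f z) x ^ 4 ≤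
      avg b J (fun z => |ψ z| ^ 4) x * P ^ 3 :=
    sum_mul_ind_pow_four _ (fun y _ => wt_nonneg hb.pos hb.le_one J y)
      (fun y _ => piv_zero_or_one e f _) (fun y _ => abs_nonneg _)
  have hA0 : 0 ≤ A := Finset.sum_nonneg fun U _ => sq_nonneg _
  have hψ4 : avg b J (fun z => |ψ z| ^ 4) x ≤ ((5 : ℝ) ^ K * A) ^ 2 := by
    have hpow : ∀ z, |ψ z| ^ 4 =
        (∑ W ∈ Us.image (fun U => U.erase e), c (insert e W) * chi b W z) ^ 4 := by
      intro z
      rw [(show Even 4 by decide).pow_abs, Finset.sum_image]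
      · congr 1
        exact Finset.sum_congr rfl fun U hU => by rw [Finset.insert_erase (hUs U hU).2.1]
      · intro U hU V hV h
        rw [← Finset.insert_erase (hUs U hU).2.1, ← Finset.insert_erase (hUs V hV).2.1]
        exact congrArg (insert e) h
    simp only [hpow]
    refine (hyper_avg hb _ ?_ _ x).trans ?_
    · intro W hW
      obtain ⟨U, hU, rfl⟩ := Finset.mem_image.1 hW
      exact (Finset.erase_subset _ _).trans (hUs U hU).1
    · refine pow_le_pow_left₀ (Finset.sum_nonneg fun W _ => by positivity) ?_ 2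
      rw [Finset.sum_image, hA, Finset.mul_sum]
      · refine Finset.sum_le_sum fun U hU => ?_
        rw [Finset.insert_erase (hUs U hU).2.1]
        refine mul_le_mul_of_nonneg_right ?_ (sq_nonneg _)
        exact pow_le_pow_right₀ (by norm_num) ((Finset.card_erase_le).trans (hUs U hU).2.2)
      · intro U hU V hV h
        rw [← Finset.insert_erase (hUs U hU).2.1, ← Finset.insert_erase (hUs V hV).2.1]
        exact congrArg (insert e) h
  have hP0 : 0 ≤ P := avg_nonneg hb.pos hb.le_one (piv_nonneg e f) x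
  have h4 : A ^ 4 ≤ ((5 : ℝ) ^ K * A) ^ 2 * P ^ 3 :=
    (pow_le_pow_left₀ hA0 hA2 4).trans
      (hCS.trans (mul_le_mul_of_nonneg_right hψ4 (by positivity)))
  rcases hA0.eq_or_lt with h0 | h0
  · rw [← h0]
    positivity
  have h5 : A ^ 2 ≤ ((5 : ℝ) ^ K * (P * Real.sqrt P)) ^ 2 := by
    rw [mul_pow, mul_pow, Real.sq_sqrt hP0]
    refine le_of_mul_le_mul_left ?_ (pow_pos h0 2)
    nlinarith
  exact (abs_le_of_sq_le_sq' h5 (by positivity)).2

section Fin

variable [Fintype ι]

/-- The part of `f` from the family `Ss` seen at `U` after restricting to `J`. -/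
noncomputable def part (b : ℝ) (J : Finset ι) (f : Finset ι → ℝ) (Ss : Finset (Finset ι))
    (U x : Finset ι) : ℝ :=
  ∑ S ∈ Ss.filter (fun S => S ∩ J = U), coef b f S * chi b (S \ J) x

lemma ex_part_mul_cf {b : ℝ} (hb : Mid b) (J : Finset ι) (f : Finset ι → ℝ)
    (Ss : Finset (Finset ι)) (U : Finset ι) :
    ex b (fun x => part b J f Ss U x * cf b J f U x) =
      ∑ S ∈ Ss.filter (fun S => S ∩ J = U), coef b f S ^ 2 := by
  have hind : ∀ z, ∀ y ⊆ J, part b J f Ss U ((z \ J) ∪ y) = part b J f Ss U z := fun z y hy =>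
    Finset.sum_congr rfl fun S _ => by rw [chi_outer Finset.sdiff_disjoint hy]
  have h1 : ex b (fun x => part b J f Ss U x * cf b J f U x) =
      ex b (fun z => part b J f Ss U z * (f z * chi b U z)) := by
    rw [← ex_avg b J (fun z => part b J f Ss U z * (f z * chi b U z))]
    congr 1
    funext x
    exact (avg_mul_indep hind x).symm
  rw [h1]
  unfold part ex
  simp only [Finset.sum_mul]
  rw [avg_sum]
  refine Finset.sum_congr rfl fun S hS => ?_
  have hSU := (Finset.mem_filter.1 hS).2
  have e : (fun z => coef b f S * chi b (S \ J) z * (f z * chi b U z)) =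
      fun z => coef b f S * (f z * chi b S z) := by
    funext z
    have : chi b S z = chi b (S \ J) z * chi b U z := by
      rw [← hSU]
      unfold chi
      conv_lhs => rw [← Finset.sdiff_union_inter S J]
      exact Finset.prod_union (Finset.disjoint_sdiff_inter S J)
    rw [this]; ring
  rw [e, avg_mul_left, sq]
  rfl

omit [Fintype ι] in
lemma sdiff_injOn_part (J U : Finset ι) (Ss : Finset (Finset ι)) :
    Set.InjOn (fun S => S \ J) ↑(Ss.filter fun S => S ∩ J = U) := by
  intro S hS T hT h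
  simp only [Finset.coe_filter, Set.mem_ofPred_eq] at hS hT
  simp only at h
  rw [← Finset.sdiff_union_inter S J, ← Finset.sdiff_union_inter T J, hS.2, hT.2, h]

lemma ex_part_sq {b : ℝ} (hb : Mid b) (J : Finset ι) (f : Finset ι → ℝ)
    (Ss : Finset (Finset ι)) (U : Finset ι) :
    ex b (fun x => part b J f Ss U x ^ 2) =
      ∑ S ∈ Ss.filter (fun S => S ∩ J = U), coef b f S ^ 2 := by
  unfold part ex
  simp only [sq, Finset.sum_mul_sum]
  rw [avg_sum]
  refine Finset.sum_congr rfl fun S hS => ?_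
  rw [avg_sum]
  calc ∑ T ∈ Ss.filter (fun S => S ∩ J = U), avg b univ
        (fun z => coef b f S * chi b (S \ J) z * (coef b f T * chi b (T \ J) z)) ∅
      = ∑ T ∈ Ss.filter (fun S => S ∩ J = U),
          if S = T then coef b f S * coef b f T else 0 := by
        refine Finset.sum_congr rfl fun T hT => ?_
        have e : (fun z => coef b f S * chi b (S \ J) z * (coef b f T * chi b (T \ J) z)) =
            fun z => coef b f S * coef b f T * (chi b (S \ J) z * chi b (T \ J) z) := by
          funext z; ring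
        rw [e, avg_mul_left, avg_chi_mul_self hb (Finset.subset_univ _) (Finset.subset_univ _)]
        by_cases h : S = T
        · simp [h]
        · rw [if_neg h, if_neg fun h' => h (sdiff_injOn_part J U Ss hS hT h'), mul_zero]
    _ = _ := by rw [Finset.sum_ite_eq, if_pos hS]

lemma ex_part_four {b : ℝ} (hb : Mid b) (J : Finset ι) (f : Finset ι → ℝ)
    (Ss : Finset (Finset ι)) (U : Finset ι) :
    ex b (fun x => part b J f Ss U x ^ 4) ≤
      (∑ S ∈ Ss.filter (fun S => S ∩ J = U), (5 : ℝ) ^ S.card * coef b f S ^ 2) ^ 2 := by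
  have e : ∀ x, part b J f Ss U x = ∑ W ∈ (Ss.filter fun S => S ∩ J = U).image (fun S => S \ J),
      coef b f (W ∪ U) * chi b W x := by
    intro x
    rw [Finset.sum_image (sdiff_injOn_part J U Ss)]
    refine Finset.sum_congr rfl fun S hS => ?_
    rw [← (Finset.mem_filter.1 hS).2, Finset.sdiff_union_inter]
  simp only [e]
  refine (hyper_avg hb _ (fun W _ => Finset.subset_univ W) _ _).trans ?_
  refine pow_le_pow_left₀ (Finset.sum_nonneg fun W _ => by positivity) ?_ 2
  rw [Finset.sum_image (sdiff_injOn_part J U Ss)]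
  refine Finset.sum_le_sum fun S hS => ?_
  conv_lhs => arg 2; rw [← (Finset.mem_filter.1 hS).2, Finset.sdiff_union_inter]
  exact mul_le_mul_of_nonneg_right
    (pow_le_pow_right₀ (by norm_num) (Finset.card_le_card Finset.sdiff_subset)) (sq_nonneg _)

end Fin

end Vale.Agent.P063
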