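import Vale.Agent.P063.Band
import Mathlib.Analysis.SpecialFunctions.Log.Basic
import Mathlib.Analysis.SpecificLimits.Normed
import Mathlib.Data.Nat.Choose.Bounds

/-!
The influence bound for symmetric functions of edge bits.
-/

namespace Vale.Agent.P063

open Finset

section Fin

variable {ι : Type*} [DecidableEq ι] [Fintype ι]

/-- Levels are paid by the influence. -/
lemma sum_card_coef_le {b : ℝ} (hb : Mid b) {f : Finset ι → ℝ} (hf : ∀ z, f z = 0 ∨ f z = 1) :
    ∑ S : Finset ι, (S.card : ℝ) * coef b f S ^ 2 ≤ totInf b f := by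
  classical
  have key : ∀ i : ι, ∑ S ∈ (univ : Finset (Finset ι)).filter (fun S => i ∈ S), coef b f S ^ 2 ≤
      ex b (piv i f) := by
    intro i
    set A := ∑ S ∈ (univ : Finset (Finset ι)).filter (fun S => S ∩ {i} = {i}), coef b f S ^ 2
      with hA
    have h1 : A = ex b (fun x => part b {i} f univ {i} x * cf b {i} f {i} x) :=
      (ex_part_mul_cf hb _ _ _ _).symm
    have h2 : A = ex b (fun x => part b {i} f univ {i} x ^ 2) := (ex_part_sq hb _ _ _ _).symm
    have h3 : A ≤ 1 / 2 * A + 1 / 2 * ex b (fun x => cf b {i} f {i} x ^ 2) := by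
      conv_lhs => rw [h1]
      rw [h2]
      unfold ex
      rw [← avg_mul_left, ← avg_mul_left, ← avg_add]
      exact avg_mono hb.pos hb.le_one
        (fun x => by nlinarith [sq_nonneg (part b {i} f univ {i} x - cf b {i} f {i} x)]) _
    have h4 : ex b (fun x => cf b {i} f {i} x ^ 2) ≤ ex b (piv i f) := by
      refine avg_mono hb.pos hb.le_one (fun x => ?_) _
      have hs := hb.sd_pos
      have hval : cf b {i} f {i} x = sd b * (f (insert i x) - f (x.erase i)) := by
        rw [cf, ← Finset.insert_empty, avg_insert (Finset.notMem_empty i), avg_empty]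
        simp only [op, chi, Finset.insert_empty, Finset.prod_singleton, Finset.mem_insert_self,
          decide_true, Finset.notMem_erase, decide_false, chi1, cond_true, cond_false]
        field_simp
        rw [sd_sq hb]
        ring
      have hsd : sd b ^ 2 ≤ 1 := by
        rw [sd_sq hb]; nlinarith [hb.1, hb.2]
      rw [hval, mul_pow]
      unfold piv
      split_ifs with h
      · simp [h]
      · rcases hf (insert i x) with h1 | h1 <;> rcases hf (x.erase i) with h2 | h2 <;>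
          rw [h1, h2] <;> nlinarith
    have e : (univ : Finset (Finset ι)).filter (fun S => i ∈ S) =
        (univ : Finset (Finset ι)).filter (fun S => S ∩ {i} = {i}) := by
      ext S; simp
    rw [e, ← hA]
    linarith
  calc ∑ S : Finset ι, (S.card : ℝ) * coef b f S ^ 2
      = ∑ i : ι, ∑ S ∈ (univ : Finset (Finset ι)).filter (fun S => i ∈ S), coef b f S ^ 2 := by
        simp only [Finset.sum_filter]
        rw [Finset.sum_comm]
        refine Finset.sum_congr rfl fun S _ => ?_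
        rw [← Finset.sum_filter, Finset.filter_mem_eq_inter, Finset.univ_inter, Finset.sum_const,
          nsmul_eq_mul]
    _ ≤ totInf b f := Finset.sum_le_sum fun i _ => key i

/-- Parseval. -/
lemma sum_coef_sq {b : ℝ} (hb : Mid b) {f : Finset ι → ℝ} (hf : ∀ z, f z = 0 ∨ f z = 1) :
    ∑ S : Finset ι, coef b f S ^ 2 = ex b f := by
  have e : ∀ z, f z = ∑ S : Finset ι, coef b f S * (f z * chi b S z) := by
    intro z
    calc f z = f z * f z := by rcases hf z with h | h <;> rw [h] <;> norm_num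
      _ = f z * ∑ S : Finset ι, coef b f S * chi b S z := by rw [← eq_sum_coef hb f z]
      _ = _ := by rw [Finset.mul_sum]; exact Finset.sum_congr rfl fun S _ => by ring
  rw [show ex b f = ex b (fun z => ∑ S : Finset ι, coef b f S * (f z * chi b S z)) from
    congrArg _ (funext e)]
  unfold ex
  rw [avg_sum]
  exact Finset.sum_congr rfl fun S _ => by rw [avg_mul_left, sq]; rfl

end Fin

lemma poly_le_two_pow (A q d : ℕ) (hd : 1 ≤ d) :
    ∃ l0 : ℕ, ∀ l ≥ l0, A * l ^ q ≤ 2 ^ (l / d) := by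
  have h := tendsto_pow_const_div_const_pow_of_one_lt q (show (1 : ℝ) < 2 by norm_num)
  set K : ℕ := A * (2 * d) ^ q with hK
  obtain ⟨m0, hm0⟩ := Filter.eventually_atTop.1
    (h.eventually (eventually_lt_nhds (show (0 : ℝ) < 1 / ((K : ℝ) + 1) by positivity)))
  refine ⟨d * (m0 + 1), fun l hl => ?_⟩
  set m := l / d with hm
  have hm1 : m0 + 1 ≤ m := (Nat.le_div_iff_mul_le hd).2 (by rw [mul_comm]; exact hl)
  have h1 : l ≤ 2 * d * m := by
    have h2 := (Nat.lt_mul_div_succ l hd).le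
    rw [← hm, mul_add, mul_one] at h2
    have h3 : d ≤ d * m := Nat.le_mul_of_pos_right _ (by omega)
    rw [mul_assoc]
    omega
  have h4 := hm0 m (by omega)
  rw [div_lt_div_iff₀ (by positivity) (by positivity), one_mul] at h4
  have h5 : (K : ℝ) * (m : ℝ) ^ q ≤ (2 : ℝ) ^ m := by
    have h7 : (K : ℝ) * (m : ℝ) ^ q ≤ (m : ℝ) ^ q * ((K : ℝ) + 1) := by
      rw [mul_add, mul_one, mul_comm]
      exact le_add_of_nonneg_right (by positivity)
    linarith
  calc A * l ^ q ≤ A * (2 * d * m) ^ q := Nat.mul_le_mul_left _ (Nat.pow_le_pow_left h1 q)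
    _ = K * m ^ q := by rw [hK, mul_pow (2 * d) m]; ring
    _ ≤ 2 ^ m := by exact_mod_cast h5

/-- A lower bound for binomial coefficients. -/
lemma two_pow_le_choose {n v l : ℕ} (hn : 2 ^ l ≤ n) (hsmall : v * (2 ^ (l / 2) + 1) ≤ 2 ^ l) :
    2 ^ (l / 2 * v) ≤ n.choose v := by
  rcases Nat.eq_zero_or_pos v with rfl | hv
  · simp
  have h1 : v * 2 ^ (l / 2) ≤ n + 1 - v := by
    rw [mul_add, mul_one] at hsmall
    omega
  have h2 : (n + 1 - v) ^ v ≤ v.factorial * n.choose v := by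
    rw [← Nat.descFactorial_eq_factorial_mul_choose]
    exact Nat.pow_sub_le_descFactorial n v
  refine le_of_mul_le_mul_left ?_ (show 0 < v ^ v from Nat.pow_pos hv)
  calc v ^ v * 2 ^ (l / 2 * v) = (v * 2 ^ (l / 2)) ^ v := by rw [mul_pow, ← pow_mul]
    _ ≤ (n + 1 - v) ^ v := Nat.pow_le_pow_left h1 v
    _ ≤ v.factorial * n.choose v := h2
    _ ≤ v ^ v * n.choose v := Nat.mul_le_mul_right _ (Nat.factorial_le_pow v)

/-- The scale constant. -/
def bigC : ℕ := 10 ^ 10

/-- The mass of one band, in powers of two. -/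
lemma band_numeric {n r m l k w : ℕ} {b : ℝ} (hb : Mid b) {f : Finset (Edge n r × Fin m) → ℝ}
    (hf : ∀ z, f z = 0 ∨ f z = 1)
    (hsym : ∀ σ z, f (z.map (bitPerm σ).toEmbedding) = f z)
    (hn : 2 ^ l ≤ n) (hl : 800000 ≤ l) (hw : 1 ≤ w) (hk : 1 ≤ k)
    (hmk : 2 * (m * (k - 1) ^ r) ≤ w) (hwk : bigC * w ≤ 2 * l * k) (hkl : bigC * k ≤ l)
    (hw2 : 2 * w + 1 ≤ 2 ^ (l / 100000)) (hsmall : 256 * r * k * (2 ^ (l / 2) + 1) ≤ 2 ^ l)
    (hI : totInf b f ≤ (2 : ℝ) ^ (l / 100000 / 4)) :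
    mass b f w ≤ 40 / ((2 : ℝ) ^ (l / 100000 / 4)) ^ 2 := by
  set a := l / 100000 with ha
  set E : ℝ := (2 : ℝ) ^ (a / 4) with hE
  have hE1 : (1 : ℝ) ≤ E := one_le_pow₀ one_le_two
  have ha8 : 8 ≤ a := by rw [ha]; omega
  have hbc : bigC = 10000000000 := by norm_num [bigC]
  rw [hbc] at hwk hkl
  set K := 256 * k with hK
  set q0 := k * (l / 16) with hq0
  set vs : Edge n r × Fin m → Finset (Fin n) := fun e => e.1.1 with hvs
  have hsym' : Symmetric vs f := fun σ => ⟨bitPerm σ, fun e => rfl, hsym σ⟩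
  have hfib : ∀ A : Finset (Fin n),
      ((univ : Finset (Edge n r × Fin m)).filter fun e => vs e ⊆ A).card ≤ m * A.card ^ r := by
    intro A
    calc ((univ : Finset (Edge n r × Fin m)).filter fun e => vs e ⊆ A).card
        ≤ ((A.powersetCard r) ×ˢ (univ : Finset (Fin m))).card := by
          refine Finset.card_le_card_of_injOn (fun e => (e.1.1, e.2)) (fun e he => ?_) ?_
          · simp only [Finset.coe_filter, Set.mem_ofPred_eq] at he
            exact Finset.mem_product.2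
              ⟨Finset.mem_powersetCard.2 ⟨he.2, e.1.2⟩, Finset.mem_univ _⟩
          · intro e _ e' _ h
            simp only [Prod.mk.injEq] at h
            exact Prod.ext (Subtype.ext h.1) h.2
      _ = A.card.choose r * m := by
          rw [Finset.card_product, Finset.card_powersetCard, Finset.card_univ, Fintype.card_fin]
      _ ≤ A.card ^ r * m := Nat.mul_le_mul_right _ (Nat.choose_le_pow _ _)
      _ = m * A.card ^ r := mul_comm _ _
  -- exponent arithmetic
  have e1 : 1280 * (a * k) + 4 * q0 ≤ l / 2 * k := by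
    have h0 : 1280 * a + 4 * (l / 16) ≤ l / 2 := by rw [ha]; omega
    have := Nat.mul_le_mul_right k h0
    rw [hq0]
    linarith
  have e2 : 768 * k ≤ a / 4 := by
    rw [ha]; omega
  have e3 : 3 * w + 1280 * (a * k) + a ≤ q0 := by
    have h0 : a ≤ a * k := Nat.le_mul_of_pos_right _ hk
    have h1 : 1282 * a + 1 ≤ l / 16 := by rw [ha]; omega
    have h2 := Nat.mul_le_mul_right k h1
    have h4 : 6 * l ≤ 10000000000 * a := by rw [ha]; omega
    have h5 := Nat.mul_le_mul_right k h4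
    have h3 : 3 * w ≤ a * k := by
      refine le_of_mul_le_mul_left ?_ (show (0 : ℕ) < 10000000000 by norm_num)
      linarith
    rw [hq0]
    linarith
  have hrare : ∀ U : Finset (Edge n r × Fin m), Good vs K k U →
      ((2 ^ (4 * a) + 1 : ℕ) : ℝ) ^ K ≤
        ((1 / 2 : ℝ) ^ q0) ^ 4 * ((Fintype.card (Fin n)).choose (span vs U).card : ℝ) := by
    intro U hU
    obtain ⟨hU1, hU2⟩ := hU
    have hv : (span vs U).card ≤ 256 * r * k := by
      calc (span vs U).card ≤ ∑ e ∈ U, (vs e).card := Finset.card_biUnion_le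
        _ = U.card * r := by
            rw [Finset.sum_congr rfl (fun e _ => (e.1.2 : (vs e).card = r)), Finset.sum_const,
              smul_eq_mul]
        _ ≤ 256 * k * r := Nat.mul_le_mul_right _ hU1
        _ = 256 * r * k := by ring
    have h1 : (2 ^ (4 * a) + 1) ^ K * 2 ^ (4 * q0) ≤ n.choose (span vs U).card := by
      refine le_trans ?_ (two_pow_le_choose hn (le_trans (Nat.mul_le_mul_right _ hv) hsmall))
      have h2 : 2 ^ (4 * a) + 1 ≤ 2 ^ (5 * a) := by
        have h3 : 2 * 2 ^ (4 * a) ≤ 2 ^ (5 * a) := by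
          rw [← pow_succ']; exact Nat.pow_le_pow_right two_pos (by omega)
        have := Nat.two_pow_pos (4 * a)
        omega
      calc (2 ^ (4 * a) + 1) ^ K * 2 ^ (4 * q0) ≤ (2 ^ (5 * a)) ^ K * 2 ^ (4 * q0) :=
            Nat.mul_le_mul_right _ (Nat.pow_le_pow_left h2 K)
        _ = 2 ^ (1280 * (a * k) + 4 * q0) := by
            rw [← pow_mul, ← pow_add, hK]; congr 1; ring
        _ ≤ _ := Nat.pow_le_pow_right two_pos (e1.trans (Nat.mul_le_mul_left _ hU2))
    rw [Fintype.card_fin, one_div, inv_pow, inv_pow, ← div_eq_inv_mul,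
      le_div_iff₀ (by positivity), ← pow_mul, mul_comm q0 4]
    exact_mod_cast h1
  have h := mass_le hb (γ := ((2 : ℝ) ^ (2 * a))⁻¹) (η := (1 / 2 : ℝ) ^ q0) (by positivity)
    (by positivity) (M := 2 ^ (4 * a)) (Nat.two_pow_pos _) hf hsym' hk hfib hmk hrare
  have t1 : 1 / (((2 : ℝ) ^ (2 * a))⁻¹ * ((2 ^ (4 * a) : ℕ) : ℝ)) = 1 / (2 : ℝ) ^ (2 * a) := by
    rw [show 4 * a = 2 * a + 2 * a by ring]
    push_cast
    rw [pow_add]
    field_simp
  have t2 : Real.sqrt (((2 : ℝ) ^ (2 * a))⁻¹) = 1 / (2 : ℝ) ^ a := by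
    rw [Real.sqrt_inv, one_div]
    congr 1
    rw [show 2 * a = a * 2 by ring, pow_mul, Real.sqrt_sq (by positivity)]
  rw [t1, t2] at h
  have hE4 : E ^ 4 ≤ (2 : ℝ) ^ a := by
    rw [hE, ← pow_mul]; exact pow_le_pow_right₀ one_le_two (by omega)
  have u1 : 1 / (2 : ℝ) ^ (2 * a) ≤ 1 / E ^ 4 :=
    one_div_le_one_div_of_le (by positivity)
      (hE4.trans (pow_le_pow_right₀ one_le_two (by omega)))
  have u2 : (5 : ℝ) ^ K * (1 / (2 : ℝ) ^ a) ≤ E * (1 / E ^ 4) := by
    refine mul_le_mul ?_ (one_div_le_one_div_of_le (by positivity) hE4) (by positivity) (by positivity)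
    calc (5 : ℝ) ^ K ≤ ((2 : ℝ) ^ 3) ^ K := pow_le_pow_left₀ (by norm_num) (by norm_num) K
      _ = (2 : ℝ) ^ (768 * k) := by rw [← pow_mul, hK]; ring_nf
      _ ≤ E := pow_le_pow_right₀ one_le_two e2
  have u3 : (5 : ℝ) ^ w * (1 / 2 : ℝ) ^ q0 *
      ((((2 * w + 1 : ℕ) : ℝ) ^ K + ((2 ^ (4 * a) + 1 : ℕ) : ℝ) ^ K) / 2) ≤ 1 / E ^ 4 := by
    have v1 : (5 : ℝ) ^ w ≤ (2 : ℝ) ^ (3 * w) := by
      rw [pow_mul]; exact pow_le_pow_left₀ (by norm_num) (by norm_num) w
    have v2 : ((2 * w + 1 : ℕ) : ℝ) ^ K ≤ (2 : ℝ) ^ (1280 * (a * k)) := by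
      have : (2 * w + 1) ^ K ≤ 2 ^ (1280 * (a * k)) :=
        le_trans (Nat.pow_le_pow_left hw2 K) (by
          rw [← pow_mul]; exact Nat.pow_le_pow_right two_pos (by rw [hK]; nlinarith))
      exact_mod_cast this
    have v3 : ((2 ^ (4 * a) + 1 : ℕ) : ℝ) ^ K ≤ (2 : ℝ) ^ (1280 * (a * k)) := by
      have : (2 ^ (4 * a) + 1) ^ K ≤ 2 ^ (1280 * (a * k)) := by
        refine le_trans (Nat.pow_le_pow_left (m := 2 ^ (5 * a)) ?_ K) ?_
        · have h3 : 2 * 2 ^ (4 * a) ≤ 2 ^ (5 * a) := by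
            rw [← pow_succ']; exact Nat.pow_le_pow_right two_pos (by omega)
          have := Nat.two_pow_pos (4 * a)
          omega
        · rw [← pow_mul]; exact Nat.pow_le_pow_right two_pos (le_of_eq (by rw [hK]; ring))
      exact_mod_cast this
    calc (5 : ℝ) ^ w * (1 / 2 : ℝ) ^ q0 *
          ((((2 * w + 1 : ℕ) : ℝ) ^ K + ((2 ^ (4 * a) + 1 : ℕ) : ℝ) ^ K) / 2)
        ≤ (2 : ℝ) ^ (3 * w) * (1 / 2 : ℝ) ^ q0 * (2 : ℝ) ^ (1280 * (a * k)) :=
          mul_le_mul (mul_le_mul_of_nonneg_right v1 (by positivity)) (by linarith) (by positivity)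
            (by positivity)
      _ = (2 : ℝ) ^ (3 * w + 1280 * (a * k)) / (2 : ℝ) ^ q0 := by
          rw [pow_add, div_pow, one_pow]; ring
      _ ≤ 1 / E ^ 4 := by
          rw [div_le_div_iff₀ (by positivity) (by positivity), one_mul]
          calc (2 : ℝ) ^ (3 * w + 1280 * (a * k)) * E ^ 4
              ≤ (2 : ℝ) ^ (3 * w + 1280 * (a * k)) * (2 : ℝ) ^ a :=
                mul_le_mul_of_nonneg_left hE4 (by positivity)
            _ ≤ (2 : ℝ) ^ q0 := by rw [← pow_add]; exact pow_le_pow_right₀ one_le_two e3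
  refine h.trans ?_
  have w1 : (1 / (2 : ℝ) ^ (2 * a) + (5 : ℝ) ^ K * (1 / (2 : ℝ) ^ a)) * totInf b f ≤
      (1 / E ^ 4 + E * (1 / E ^ 4)) * E :=
    mul_le_mul (add_le_add u1 u2) hI
      (Finset.sum_nonneg fun i _ => avg_nonneg hb.pos hb.le_one (piv_nonneg i f) _) (by positivity)
  have w2 : (1 / E ^ 4 + E * (1 / E ^ 4)) * E ≤ 2 * (1 / E ^ 2) := by
    have h1 : 1 / E ^ 4 + E * (1 / E ^ 4) ≤ 2 * (E * (1 / E ^ 4)) := by
      have : 1 / E ^ 4 ≤ E * (1 / E ^ 4) := le_mul_of_one_le_left (by positivity) hE1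
      linarith
    refine (mul_le_mul_of_nonneg_right h1 (by positivity)).trans (le_of_eq ?_)
    field_simp
  have w3 : 1 / E ^ 4 ≤ 1 / E ^ 2 :=
    one_div_le_one_div_of_le (by positivity) (pow_le_pow_right₀ hE1 (by norm_num))
  have w4 : (0 : ℝ) ≤ 1 / E ^ 2 := by positivity
  rw [show (40 : ℝ) / E ^ 2 = 40 * (1 / E ^ 2) by ring]
  linarith

end Vale.Agent.P063
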