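import Vale.Agent.P063.Influence
import Mathlib.Analysis.SpecialFunctions.Log.Base
import Mathlib.Analysis.Complex.ExponentialBounds

/-!
Summing the bands.
-/

namespace Vale.Agent.P063

open Finset

section Fin

variable {ι : Type*} [DecidableEq ι] [Fintype ι]

/-- Levels up to `D` are covered by dyadic bands. -/
lemma low_levels_le (b : ℝ) (f : Finset ι → ℝ) {D : ℕ} {B : ℝ}
    (hB : ∀ w, 1 ≤ w → w ≤ D → mass b f w ≤ B) (hB0 : 0 ≤ B) :
    ∑ S ∈ (univ : Finset (Finset ι)).filter (fun S => 1 ≤ S.card ∧ S.card ≤ D), coef b f S ^ 2 ≤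
      (Nat.log 2 D + 1 : ℕ) * B := by
  classical
  calc ∑ S ∈ (univ : Finset (Finset ι)).filter (fun S => 1 ≤ S.card ∧ S.card ≤ D), coef b f S ^ 2
      = ∑ j ∈ Finset.range (Nat.log 2 D + 1),
          ∑ S ∈ ((univ : Finset (Finset ι)).filter (fun S => 1 ≤ S.card ∧ S.card ≤ D)).filter
            (fun S => Nat.log 2 S.card = j), coef b f S ^ 2 := by
        refine (Finset.sum_fiberwise_of_maps_to (fun S hS => ?_) _).symm
        have h := (Finset.mem_filter.1 hS).2.2
        exact Finset.mem_range.2 (Nat.lt_succ_of_le (Nat.log_mono_right h))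
    _ ≤ ∑ _j ∈ Finset.range (Nat.log 2 D + 1), B := by
        refine Finset.sum_le_sum fun j hj => ?_
        rcases Nat.eq_zero_or_pos D with hD | hD
        · refine le_trans (le_of_eq (Finset.sum_eq_zero fun S hS => ?_)) hB0
          have := (Finset.mem_filter.1 (Finset.mem_filter.1 hS).1).2
          omega
        refine le_trans ?_ (hB (2 ^ j) Nat.one_le_two_pow ((Nat.pow_le_pow_right two_pos
          (Nat.lt_succ_iff.1 (Finset.mem_range.1 hj))).trans (Nat.pow_log_le_self 2 (by omega))))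
        refine Finset.sum_le_sum_of_subset_of_nonneg (fun S hS => ?_) fun S _ _ => sq_nonneg _
        obtain ⟨h1, h2⟩ := Finset.mem_filter.1 hS
        have h3 := (Finset.mem_filter.1 h1).2
        refine Finset.mem_filter.2 ⟨Finset.mem_univ S, ?_, ?_⟩
        · rw [← h2]; exact Nat.pow_log_le_self 2 (by omega)
        · rw [← h2, ← pow_succ']
          exact Nat.lt_pow_succ_log_self one_lt_two _
    _ = _ := by rw [Finset.sum_const, Finset.card_range, nsmul_eq_mul]

/-- If the low levels are light, the influence is large. -/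
lemma influence_of_low {b : ℝ} (hb : Mid b) {f : Finset ι → ℝ} (hf : ∀ z, f z = 0 ∨ f z = 1)
    {ε : ℝ} (hε : 0 < ε) (h1 : ε ≤ ex b f) (h2 : ex b f ≤ 1 - ε) {D : ℕ}
    (hlow : ∑ S ∈ (univ : Finset (Finset ι)).filter (fun S => 1 ≤ S.card ∧ S.card ≤ D),
      coef b f S ^ 2 ≤ ε / 4) :
    ε * D / 4 ≤ totInf b f := by
  classical
  have hempty : coef b f (∅ : Finset ι) = ex b f := by
    simp [coef, chi]
  have hall := sum_coef_sq hb hf
  rw [← Finset.add_sum_erase _ _ (Finset.mem_univ (∅ : Finset ι)), hempty] at hall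
  have hsplit : ∑ S ∈ (univ : Finset (Finset ι)).erase ∅, coef b f S ^ 2 ≤
      ∑ S ∈ (univ : Finset (Finset ι)).filter (fun S => 1 ≤ S.card ∧ S.card ≤ D), coef b f S ^ 2 +
      ∑ S ∈ (univ : Finset (Finset ι)).filter (fun S => D < S.card), coef b f S ^ 2 := by
    rw [← Finset.sum_union]
    · refine Finset.sum_le_sum_of_subset_of_nonneg (fun S hS => ?_) fun S _ _ => sq_nonneg _
      have hne : 1 ≤ S.card :=
        Finset.card_pos.2 (Finset.nonempty_iff_ne_empty.2 (Finset.mem_erase.1 hS).1)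
      rcases le_or_gt S.card D with h | h
      · exact Finset.mem_union_left _ (Finset.mem_filter.2 ⟨Finset.mem_univ S, hne, h⟩)
      · exact Finset.mem_union_right _ (Finset.mem_filter.2 ⟨Finset.mem_univ S, h⟩)
    · exact Finset.disjoint_filter.2 fun S _ h => not_lt.2 h.2
  have hhigh : (D : ℝ) * ∑ S ∈ (univ : Finset (Finset ι)).filter (fun S => D < S.card),
      coef b f S ^ 2 ≤ totInf b f := by
    refine le_trans ?_ (sum_card_coef_le hb hf)
    rw [Finset.mul_sum]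
    refine le_trans (Finset.sum_le_sum fun S hS => mul_le_mul_of_nonneg_right
      (by exact_mod_cast (Finset.mem_filter.1 hS).2.le : (D : ℝ) ≤ (S.card : ℝ)) (sq_nonneg _))
      (Finset.sum_le_sum_of_subset_of_nonneg (Finset.subset_univ _) fun S _ _ => by positivity)
  have hvar : ε / 2 ≤ ∑ S ∈ (univ : Finset (Finset ι)).erase ∅, coef b f S ^ 2 := by
    nlinarith
  have hD0 : (0 : ℝ) ≤ D := Nat.cast_nonneg D
  nlinarith

end Fin

/-- The largest admissible number of spanned vertices. -/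
noncomputable def kTop (r m l : ℕ) : ℕ :=
  ⌊((l : ℝ) / (bigC * m)) ^ (1 / ((r : ℝ) - 1))⌋₊

lemma kTop_spec {r m l : ℕ} (hr : 2 ≤ r) (hm : 1 ≤ m) (hml : bigC * m ≤ l) :
    1 ≤ kTop r m l ∧ bigC * m * kTop r m l ^ (r - 1) ≤ l ∧
      ((l : ℝ) / bigC) ^ ((r : ℝ) / ((r : ℝ) - 1)) / m ≤
        2 ^ r * ((m * kTop r m l ^ r : ℕ) : ℝ) := by
  have hC : (0 : ℝ) < bigC := by norm_num [bigC]
  have hm0 : (0 : ℝ) < m := by exact_mod_cast hm
  have hr1 : (1 : ℝ) ≤ (r : ℝ) - 1 := by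
    have : (2 : ℝ) ≤ r := by exact_mod_cast hr
    linarith
  set e := 1 / ((r : ℝ) - 1) with he
  have he0 : 0 ≤ e := by rw [he]; positivity
  set Q := (l : ℝ) / (bigC * m) with hQ
  have hQ1 : 1 ≤ Q := by
    rw [hQ, one_le_div (by positivity)]
    exact_mod_cast hml
  set X := Q ^ e with hX
  have hX1 : 1 ≤ X := Real.one_le_rpow hQ1 he0
  have hk : kTop r m l = ⌊X⌋₊ := rfl
  have hXpow : X ^ (r - 1) = Q := by
    rw [hX, ← Real.rpow_mul_natCast (by positivity), he, Nat.cast_sub (by omega), Nat.cast_one,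
      one_div_mul_cancel (by linarith), Real.rpow_one]
  refine ⟨by rw [hk]; exact Nat.le_floor (by exact_mod_cast hX1), ?_, ?_⟩
  · have h1 : ((kTop r m l : ℕ) : ℝ) ^ (r - 1) ≤ Q := by
      rw [← hXpow, hk]
      exact pow_le_pow_left₀ (Nat.cast_nonneg _) (Nat.floor_le (by linarith)) _
    rw [hQ, le_div_iff₀ (by positivity)] at h1
    have h2 : ((bigC * m * kTop r m l ^ (r - 1) : ℕ) : ℝ) ≤ (l : ℝ) := by push_cast; linarith
    exact_mod_cast h2
  · have h1 : X ≤ 2 * ((kTop r m l : ℕ) : ℝ) := by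
      have h2 := Nat.lt_floor_add_one X
      have h3 : (1 : ℝ) ≤ ((⌊X⌋₊ : ℕ) : ℝ) := by
        exact_mod_cast Nat.le_floor (show ((1 : ℕ) : ℝ) ≤ X by exact_mod_cast hX1)
      rw [hk]
      linarith
    have h2 : (m : ℝ) * X ^ r ≤ 2 ^ r * ((m * kTop r m l ^ r : ℕ) : ℝ) := by
      push_cast
      calc (m : ℝ) * X ^ r ≤ (m : ℝ) * (2 * ((kTop r m l : ℕ) : ℝ)) ^ r :=
            mul_le_mul_of_nonneg_left (pow_le_pow_left₀ (by linarith) h1 r) hm0.le
        _ = _ := by rw [mul_pow]; ring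
    refine le_trans ?_ h2
    have h3 : X ^ r = Q * Q ^ e := by
      rw [← hXpow]
      conv_lhs => rw [show r = (r - 1) + 1 by omega, pow_succ]
      rw [hXpow]
    have hp : (r : ℝ) / ((r : ℝ) - 1) = 1 + e := by
      rw [he]; field_simp; ring
    have hlC : 0 < (l : ℝ) / bigC := by
      have : (0 : ℝ) < l := by
        have : 0 < l := lt_of_lt_of_le (Nat.mul_pos (by norm_num [bigC]) hm) hml
        exact_mod_cast this
      positivity
    have hQe : ((l : ℝ) / bigC) ^ e ≤ (m : ℝ) * Q ^ e := by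
      have h4 : (m : ℝ) ^ e ≤ m := by
        calc (m : ℝ) ^ e ≤ (m : ℝ) ^ (1 : ℝ) :=
              Real.rpow_le_rpow_of_exponent_le (by exact_mod_cast hm)
                (by rw [he, div_le_one (by linarith)]; linarith)
          _ = m := Real.rpow_one _
      rw [show (l : ℝ) / bigC = m * Q by rw [hQ]; field_simp,
        Real.mul_rpow hm0.le (by positivity)]
      exact mul_le_mul_of_nonneg_right h4 (by positivity)
    rw [hp, Real.rpow_add hlC, Real.rpow_one, h3, div_le_iff₀ hm0,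
      show (m : ℝ) * (Q * Q ^ e) * m = ((l : ℝ) / bigC) * (m * Q ^ e) by rw [hQ]; field_simp]
    exact mul_le_mul_of_nonneg_left hQe hlC.le

/-- The influence of symmetric functions. -/
theorem influenceBound (r : ℕ) (hr : 2 ≤ r) : InfluenceBound r := by
  set p : ℝ := (r : ℝ) / ((r : ℝ) - 1) with hp
  have hC : (0 : ℝ) < bigC := by norm_num [bigC]
  have hCv : bigC = 10000000000 := by norm_num [bigC]
  refine ⟨(1 / (2 * bigC)) ^ p / 2 ^ r / 2, by positivity, fun ε hε => ?_⟩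
  obtain ⟨l1, hl1⟩ := poly_le_two_pow (8 + ⌈160 / ε⌉₊) 2 800000 (by norm_num)
  obtain ⟨l2, hl2⟩ := poly_le_two_pow (256 * r * 2) 1 2 (by norm_num)
  obtain ⟨T, hT⟩ : ∃ T : ℕ, ∀ L : ℝ, (T : ℝ) ≤ L → (bigC : ℝ) * (8 * Real.log L + 8) ≤ L / 4 := by
    set A : ℝ := 64 * bigC with hA
    have hA0 : 0 < A := by rw [hA]; positivity
    refine ⟨⌈8 * (bigC : ℝ) * (8 * |Real.log A| + 8)⌉₊ + 1, fun L hL => ?_⟩
    push_cast at hL
    have h1 := Nat.le_ceil (8 * (bigC : ℝ) * (8 * |Real.log A| + 8))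
    have h0 : 0 < L := by
      have : (0 : ℝ) ≤ (⌈8 * (bigC : ℝ) * (8 * |Real.log A| + 8)⌉₊ : ℕ) := Nat.cast_nonneg _
      linarith
    have h2 : Real.log L ≤ L / A + |Real.log A| := by
      have h3 := Real.log_le_sub_one_of_pos (show 0 < L / A by positivity)
      rw [Real.log_div h0.ne' hA0.ne'] at h3
      linarith [le_abs_self (Real.log A)]
    have h4 : (bigC : ℝ) * (8 * (L / A)) = L / 8 := by rw [hA]; field_simp; ring
    have h5 : (bigC : ℝ) * (8 * Real.log L + 8) ≤ (bigC : ℝ) * (8 * (L / A + |Real.log A|) + 8) :=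
      mul_le_mul_of_nonneg_left (by linarith) hC.le
    linarith
  refine ⟨2 ^ (l1 + l2 + 2 * T + 800000 + 2), fun n hn m hm hmL b hb f hf hsym h1 h2 => ?_⟩
  set l := Nat.log 2 n with hl
  have hn0 : n ≠ 0 := by
    have := Nat.two_pow_pos (l1 + l2 + 2 * T + 800000 + 2)
    omega
  have hlow : l1 + l2 + 2 * T + 800000 + 2 ≤ l := by
    rw [hl, ← Nat.log_pow one_lt_two (l1 + l2 + 2 * T + 800000 + 2)]
    exact Nat.log_mono_right hn
  have hnl : 2 ^ l ≤ n := Nat.pow_log_le_self 2 hn0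
  set L := Real.log n with hL
  have hnR : (0 : ℝ) < n := by exact_mod_cast Nat.pos_of_ne_zero hn0
  have hlog2 : Real.log 2 < 0.7 := by linarith [Real.log_two_lt_d9]
  have hlog2' : 0.6 < Real.log 2 := by linarith [Real.log_two_gt_d9]
  have hLhi : L ≤ ((l : ℝ) + 1) * Real.log 2 := by
    rw [hL, show ((l : ℝ) + 1) = ((l + 1 : ℕ) : ℝ) by push_cast; ring, ← Real.log_pow]
    exact Real.log_le_log hnR (by exact_mod_cast (Nat.lt_pow_succ_log_self one_lt_two n).le)
  have hLlo : (l : ℝ) * Real.log 2 ≤ L := by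
    rw [hL, ← Real.log_pow]
    exact Real.log_le_log (by positivity) (by exact_mod_cast hnl)
  have hl3 : (2 : ℝ) * (T : ℝ) + 2 ≤ l := by exact_mod_cast (show 2 * T + 2 ≤ l by omega)
  have hl0 : (0 : ℝ) ≤ l := Nat.cast_nonneg l
  have hLl : L ≤ l := by
    have h3 : ((l : ℝ) + 1) * Real.log 2 ≤ ((l : ℝ) + 1) * (7 / 10) :=
      mul_le_mul_of_nonneg_left (by norm_num at hlog2 ⊢; linarith) (by linarith)
    have : (8 : ℝ) ≤ l := by exact_mod_cast (show 8 ≤ l by omega)
    linarith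
  have hLl2 : (l : ℝ) / 2 ≤ L := by
    have h3 : (l : ℝ) * (6 / 10) ≤ (l : ℝ) * Real.log 2 :=
      mul_le_mul_of_nonneg_left (by norm_num at hlog2' ⊢; linarith) hl0
    linarith
  have hml : bigC * m ≤ l := by
    have h3 := hT L (by linarith)
    have h4 : (bigC : ℝ) * m ≤ (bigC : ℝ) * (8 * Real.log L + 8) :=
      mul_le_mul_of_nonneg_left hmL hC.le
    have h5 : ((bigC * m : ℕ) : ℝ) ≤ (l : ℝ) := by push_cast; linarith
    exact_mod_cast h5
  obtain ⟨hk1, hk2, hk3⟩ := kTop_spec hr hm hml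
  set k0 := kTop r m l with hk0
  set D := 2 * (m * k0 ^ r) with hD
  have hk0r : k0 ^ r = k0 ^ (r - 1) * k0 := by
    conv_lhs => rw [show r = (r - 1) + 1 by omega, pow_succ]
  have hk0l : bigC * k0 ≤ l := by
    refine le_trans ?_ hk2
    rw [mul_assoc]
    refine Nat.mul_le_mul_left _ ?_
    calc k0 = 1 * k0 ^ 1 := by ring
      _ ≤ m * k0 ^ (r - 1) := Nat.mul_le_mul hm (Nat.pow_le_pow_right hk1 (by omega))
  have hDl : D ≤ 2 * (l * l) := by
    rw [hD, hk0r, ← mul_assoc m]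
    refine Nat.mul_le_mul_left 2 (Nat.mul_le_mul ?_ ?_)
    · exact le_trans (Nat.le_mul_of_pos_left _ (by omega))
        (le_trans (le_of_eq (mul_assoc _ _ _).symm) hk2)
    · exact le_trans (Nat.le_mul_of_pos_left _ (by omega)) hk0l
  set a := l / 100000 with ha
  have hbig : (8 + ⌈160 / ε⌉₊) * l ^ 2 ≤ 2 ^ (a / 4) :=
    le_trans (hl1 l (by omega)) (Nat.pow_le_pow_right two_pos (by rw [ha]; omega))
  have h8 : 8 * (l * l) ≤ 2 ^ (a / 4) := le_trans (by
    rw [sq]; exact Nat.mul_le_mul_right _ (Nat.le_add_right _ _)) hbig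
  set E : ℝ := (2 : ℝ) ^ (a / 4) with hE
  -- the claimed size
  have hsize : (1 / (2 * (bigC : ℝ))) ^ p / 2 ^ r / 2 * ε * L ^ p / m ≤ ε * D / 4 := by
    have hp0 : 0 ≤ p := by
      have : (2 : ℝ) ≤ r := by exact_mod_cast hr
      rw [hp]; exact div_nonneg (by linarith) (by linarith)
    have h3 : (1 / (2 * (bigC : ℝ))) ^ p * L ^ p ≤ ((l : ℝ) / bigC) ^ p := by
      rw [← Real.mul_rpow (by positivity) (by linarith)]
      refine Real.rpow_le_rpow (mul_nonneg (by positivity) (by linarith)) ?_ hp0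
      rw [one_div_mul_eq_div, div_le_div_iff₀ (by positivity) hC]
      nlinarith
    have h4 : (1 / (2 * (bigC : ℝ))) ^ p * L ^ p / m ≤ 2 ^ r * ((m * k0 ^ r : ℕ) : ℝ) :=
      le_trans (div_le_div_of_nonneg_right h3 (Nat.cast_nonneg m)) hk3
    have h6 : (0 : ℝ) ≤ ε / (2 ^ r * 2) := by positivity
    calc (1 / (2 * (bigC : ℝ))) ^ p / 2 ^ r / 2 * ε * L ^ p / m
        = ε / (2 ^ r * 2) * ((1 / (2 * (bigC : ℝ))) ^ p * L ^ p / m) := by ring
      _ ≤ ε / (2 ^ r * 2) * (2 ^ r * ((m * k0 ^ r : ℕ) : ℝ)) := mul_le_mul_of_nonneg_left h4 h6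
      _ = ε * D / 4 := by rw [hD]; push_cast; field_simp; ring
  refine hsize.trans ?_
  by_contra hcon
  push Not at hcon
  have hε2 : ε ≤ 1 / 2 := by linarith
  have hI : totInf b f ≤ E := by
    have h3 : (D : ℝ) ≤ E := by
      have : D ≤ 2 ^ (a / 4) := by linarith
      rw [hE]; exact_mod_cast this
    have hD0 : (0 : ℝ) ≤ D := Nat.cast_nonneg D
    nlinarith
  have hband : ∀ w, 1 ≤ w → w ≤ D → mass b f w ≤ 40 / E ^ 2 := by
    intro w hw1 hwD
    have hex : ∃ k, w ≤ 2 * (m * k ^ r) := ⟨k0, hwD⟩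
    set k := Nat.find hex with hk
    have hkw := Nat.find_spec hex
    rw [← hk] at hkw
    have hkk0 : k ≤ k0 := Nat.find_le hwD
    have hkpos : 1 ≤ k := by
      by_contra hc
      rw [show k = 0 by omega, zero_pow (by omega)] at hkw
      simp at hkw
      omega
    have hmk : 2 * (m * (k - 1) ^ r) ≤ w := by
      have := Nat.find_min hex (show k - 1 < k by omega)
      omega
    have hwk : bigC * w ≤ 2 * l * k := by
      calc bigC * w ≤ bigC * (2 * (m * k ^ r)) := Nat.mul_le_mul_left _ hkw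
        _ = 2 * (bigC * m * k ^ (r - 1)) * k := by
            conv_lhs => rw [show r = (r - 1) + 1 by omega, pow_succ]
            ring
        _ ≤ 2 * (bigC * m * k0 ^ (r - 1)) * k :=
            Nat.mul_le_mul_right _ (Nat.mul_le_mul_left _
              (Nat.mul_le_mul_left _ (Nat.pow_le_pow_left hkk0 _)))
        _ ≤ 2 * l * k := Nat.mul_le_mul_right _ (Nat.mul_le_mul_left _ hk2)
    have hw2 : 2 * w + 1 ≤ 2 ^ a := by
      have h3 : 2 ^ (a / 4) ≤ 2 ^ a := Nat.pow_le_pow_right two_pos (Nat.div_le_self a 4)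
      have h4 : 1 ≤ l * l := Nat.one_le_iff_ne_zero.2 (Nat.mul_ne_zero (by omega) (by omega))
      linarith
    have hsmall : 256 * r * k * (2 ^ (l / 2) + 1) ≤ 2 ^ l := by
      have h3 := hl2 l (by omega)
      rw [pow_one] at h3
      have hkl : k ≤ l := le_trans (hkk0.trans (Nat.le_mul_of_pos_left _ (by omega))) hk0l
      have h4 : 2 ^ (l / 2) + 1 ≤ 2 * 2 ^ (l / 2) := by
        have := Nat.two_pow_pos (l / 2); omega
      calc 256 * r * k * (2 ^ (l / 2) + 1) ≤ 256 * r * l * (2 * 2 ^ (l / 2)) :=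
            Nat.mul_le_mul (Nat.mul_le_mul_left _ hkl) h4
        _ = 256 * r * 2 * l * 2 ^ (l / 2) := by ring
        _ ≤ 2 ^ (l / 2) * 2 ^ (l / 2) := Nat.mul_le_mul_right _ h3
        _ ≤ 2 ^ l := by rw [← pow_add]; exact Nat.pow_le_pow_right two_pos (by omega)
    exact band_numeric hb hf hsym hnl (by omega) hw1 hkpos hmk hwk
      (le_trans (Nat.mul_le_mul_left _ hkk0) hk0l) hw2 hsmall hI
  have hlowsum := low_levels_le b f hband (by positivity)
  have hfinal : ((Nat.log 2 D + 1 : ℕ) : ℝ) * (40 / E ^ 2) ≤ ε / 4 := by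
    have h3 : Nat.log 2 D + 1 ≤ l ^ 2 := by
      have hDpos : D ≠ 0 := by
        rw [hD]
        exact Nat.mul_ne_zero (by norm_num)
          (Nat.mul_ne_zero (by omega) (pow_ne_zero _ (by omega)))
      have h4 : Nat.log 2 D < 2 * l := Nat.log_lt_of_lt_pow hDpos (by
        have h5 : 2 * l < 2 ^ l := by
          have := Nat.lt_two_pow_self (n := l - 2)
          have h6 : 2 ^ l = 4 * 2 ^ (l - 2) := by
            rw [show (4 : ℕ) = 2 ^ 2 by norm_num, ← pow_add]; congr 1; omega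
          omega
        have h7 : l * (2 * l) < 2 ^ l * 2 ^ l :=
          Nat.mul_lt_mul_of_le_of_lt (Nat.lt_two_pow_self).le h5 (Nat.two_pow_pos l)
        rw [two_mul l, pow_add]
        linarith)
      have h8 : 2 * l ≤ l ^ 2 := by rw [sq]; exact Nat.mul_le_mul_right l (by omega)
      omega
    have h4 : 160 * ((Nat.log 2 D + 1 : ℕ) : ℝ) ≤ ε * E := by
      have h5 : ((8 + ⌈160 / ε⌉₊ : ℕ) : ℝ) * ((l ^ 2 : ℕ) : ℝ) ≤ E := by
        rw [hE]; exact_mod_cast hbig
      have h6 : 160 ≤ ε * ((8 + ⌈160 / ε⌉₊ : ℕ) : ℝ) := by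
        have := Nat.le_ceil (160 / ε)
        rw [div_le_iff₀ hε] at this
        push_cast
        nlinarith
      calc 160 * ((Nat.log 2 D + 1 : ℕ) : ℝ) ≤ 160 * ((l ^ 2 : ℕ) : ℝ) :=
            mul_le_mul_of_nonneg_left (by exact_mod_cast h3) (by norm_num)
        _ ≤ ε * ((8 + ⌈160 / ε⌉₊ : ℕ) : ℝ) * ((l ^ 2 : ℕ) : ℝ) :=
            mul_le_mul_of_nonneg_right h6 (Nat.cast_nonneg _)
        _ ≤ ε * E := by rw [mul_assoc]; exact mul_le_mul_of_nonneg_left h5 hε.le
    have hE1 : (1 : ℝ) ≤ E := one_le_pow₀ one_le_two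
    have hEE : ε * E ≤ ε * E ^ 2 := mul_le_mul_of_nonneg_left (le_self_pow₀ hE1 (by norm_num)) hε.le
    rw [mul_div_assoc', div_le_div_iff₀ (by positivity) (by norm_num)]
    linarith
  exact absurd (influence_of_low hb hf hε h1 h2 (hlowsum.trans hfinal)) (not_le.2 hcon)

end Vale.Agent.P063
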