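import Vale.Agent.P063.Hyper
import Mathlib.Analysis.SpecialFunctions.Exp
import Mathlib.Analysis.Complex.ExponentialBounds

/-!
A sparse random sample of a set of coordinates spans many vertices.
-/

namespace Vale.Agent.P063

open Finset

variable {ι V : Type*} [DecidableEq ι] [Fintype ι] [DecidableEq V]

/-- The vertices spanned by a set of coordinates. -/
def span (vs : ι → Finset V) (U : Finset ι) : Finset V := U.biUnion vs

/-- Indicator of an event. -/
noncomputable def ind (P : Prop) : ℝ :=
  letI := Classical.dec P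
  if P then 1 else 0

lemma ind_of {P : Prop} (h : P) : ind P = 1 := by simp [ind, h]

lemma ind_of_not {P : Prop} (h : ¬ P) : ind P = 0 := by simp [ind, h]

lemma ind_zero_or_one (P : Prop) : ind P = 0 ∨ ind P = 1 := by
  by_cases h : P
  · exact Or.inr (ind_of h)
  · exact Or.inl (ind_of_not h)

lemma ind_nonneg (P : Prop) : 0 ≤ ind P := by
  rcases ind_zero_or_one P with h | h <;> rw [h]
  exact zero_le_one

/-- A prescribed pattern of sampled and rejected coordinates. -/
lemma ex_pattern (q : ℝ) {U D : Finset ι} (hd : Disjoint U D) :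
    ex q (fun J => ind (U ⊆ J ∧ Disjoint D J)) = q ^ U.card * (1 - q) ^ D.card := by
  set h : ι → Bool → ℝ := fun i v => if i ∈ U then cond v 1 0 else cond v 0 1 with hh
  have e : ∀ J : Finset ι, ind (U ⊆ J ∧ Disjoint D J) = ∏ i ∈ U ∪ D, h i (decide (i ∈ J)) := by
    intro J
    by_cases hP : U ⊆ J ∧ Disjoint D J
    · rw [ind_of hP, eq_comm]
      refine Finset.prod_eq_one fun a ha => ?_
      rcases Finset.mem_union.1 ha with h1 | h1
      · simp [hh, h1, hP.1 h1]
      · simp [hh, Finset.disjoint_right.1 hd h1, Finset.disjoint_left.1 hP.2 h1]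
    · rw [ind_of_not hP, eq_comm, Finset.prod_eq_zero_iff]
      rw [not_and_or, Finset.not_subset, Finset.not_disjoint_iff] at hP
      rcases hP with ⟨a, h1, h2⟩ | ⟨a, h1, h2⟩
      · exact ⟨a, Finset.mem_union_left _ h1, by simp [hh, h1, h2]⟩
      · exact ⟨a, Finset.mem_union_right _ h1, by simp [hh, Finset.disjoint_right.1 hd h1, h2]⟩
  simp only [e]
  unfold ex
  rw [avg_prod, Finset.inter_univ, Finset.sdiff_eq_empty_iff_subset.2 (Finset.subset_univ _),
    Finset.prod_empty, mul_one, Finset.prod_union hd]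
  congr 1
  · rw [← Finset.prod_const]
    exact Finset.prod_congr rfl fun a ha => by simp [hh, ha]
  · rw [← Finset.prod_const]
    exact Finset.prod_congr rfl fun a ha => by simp [hh, Finset.disjoint_right.1 hd ha]

lemma ex_card_inter (q : ℝ) (S : Finset ι) :
    ex q (fun J => ((S ∩ J).card : ℝ)) = q * S.card := by
  have e : ∀ J : Finset ι, ((S ∩ J).card : ℝ) =
      ∑ a ∈ S, ind ({a} ⊆ J ∧ Disjoint (∅ : Finset ι) J) := by
    intro J
    rw [show S ∩ J = S.filter (fun a => a ∈ J) from (Finset.filter_mem_eq_inter).symm,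
      Finset.card_filter]
    push_cast
    refine Finset.sum_congr rfl fun a _ => ?_
    by_cases h : a ∈ J
    · rw [if_pos h, ind_of ⟨by simpa using h, Finset.disjoint_empty_left J⟩]
    · rw [if_neg h, ind_of_not fun h' => h (by simpa using h'.1)]
  simp only [e]
  rw [show ex q (fun J : Finset ι => ∑ a ∈ S, ind ({a} ⊆ J ∧ Disjoint (∅ : Finset ι) J)) =
    ∑ a ∈ S, ex q (fun J : Finset ι => ind ({a} ⊆ J ∧ Disjoint (∅ : Finset ι) J)) from
      avg_sum _ _ _ _ _]
  simp only [ex_pattern q (Finset.disjoint_empty_right _), Finset.card_singleton, pow_one,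
    Finset.card_empty, pow_zero, mul_one, Finset.sum_const, nsmul_eq_mul]
  ring

omit [Fintype ι] in
/-- Some coordinates of `U`, one per spanned vertex, already span everything. -/
lemma exists_small_spanning (vs : ι → Finset V) (U : Finset ι) :
    ∃ U0 ⊆ U, U0.card ≤ (span vs U).card ∧ span vs U0 = span vs U := by
  classical
  have h : ∀ v : {v // v ∈ span vs U}, ∃ a ∈ U, v.1 ∈ vs a := fun v => Finset.mem_biUnion.1 v.2
  choose g hg hg' using h
  refine ⟨(span vs U).attach.image g, ?_, ?_, ?_⟩
  · intro a ha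
    obtain ⟨v, -, rfl⟩ := Finset.mem_image.1 ha
    exact hg v
  · exact Finset.card_image_le.trans (le_of_eq (Finset.card_attach))
  · refine subset_antisymm (Finset.biUnion_subset_biUnion_of_subset_left vs ?_) fun v hv => ?_
    · intro a ha
      obtain ⟨w, -, rfl⟩ := Finset.mem_image.1 ha
      exact hg w
    · exact Finset.mem_biUnion.2
        ⟨g ⟨v, hv⟩, Finset.mem_image.2 ⟨⟨v, hv⟩, Finset.mem_attach _ _, rfl⟩, hg' _⟩

/-- The density of the sample. -/
noncomputable def dens (k w : ℕ) : ℝ := if 64 * k < w then 32 * (k : ℝ) / w else 1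

lemma dens_mem {k w : ℕ} : 0 ≤ dens k w ∧ dens k w ≤ 1 := by
  unfold dens
  split_ifs with h
  · have hw : (0 : ℝ) < w := by exact_mod_cast (show 0 < w by omega)
    refine ⟨by positivity, ?_⟩
    rw [div_le_one hw]
    exact_mod_cast (show 32 * k ≤ w by omega)
  · exact ⟨zero_le_one, le_rfl⟩

/-- The sampling event. -/
def Good (vs : ι → Finset V) (K k : ℕ) (U : Finset ι) : Prop :=
  U.card ≤ K ∧ k ≤ (span vs U).card

/-- The sample spans `k` vertices and is small with probability at least `1/4`. -/
lemma span_prob (vs : ι → Finset V) {S : Finset ι} {m k r w : ℕ} (hk : 1 ≤ k)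
    (hfib : ∀ A : Finset V, (S.filter fun a => vs a ⊆ A).card ≤ m * A.card ^ r)
    (hw : w ≤ S.card) (hw2 : S.card < 2 * w) (hmk : 2 * (m * (k - 1) ^ r) ≤ w) :
    1 / 4 ≤ ex (dens k w) (fun J => ind (Good vs (256 * k) k (S ∩ J))) := by
  classical
  set q := dens k w with hq
  obtain ⟨hq0, hq1⟩ := dens_mem (k := k) (w := w)
  by_cases hbig : 64 * k < w
  swap
  · have hqe : q = 1 := by rw [hq, dens, if_neg hbig]
    have hgood : Good vs (256 * k) k S := by
      refine ⟨by omega, ?_⟩
      by_contra hlt
      push Not at hlt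
      have h1 := hfib (span vs S)
      rw [Finset.filter_true_of_mem fun a ha => (show vs a ⊆ span vs S from Finset.subset_biUnion_of_mem vs ha)] at h1
      have h2 : m * (span vs S).card ^ r ≤ m * (k - 1) ^ r :=
        Nat.mul_le_mul_left _ (Nat.pow_le_pow_left (by omega) r)
      omega
    rw [hqe, ex_eq_sum, Finset.sum_eq_single_of_mem univ (Finset.mem_univ _)]
    · rw [Finset.inter_univ, ind_of hgood]
      simp [wt]
      norm_num
    · intro y _ hy
      have hlt : y.card < (univ : Finset ι).card :=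
        Finset.card_lt_card (Finset.ssubset_univ_iff.2 hy)
      rw [wt, sub_self, zero_pow (by omega)]
      simp
  have hqe : q = 32 * (k : ℝ) / w := by rw [hq, dens, if_pos hbig]
  have hwpos : (0 : ℝ) < w := by exact_mod_cast (show 0 < w by omega)
  set N := S.card with hN
  set F := (S.powerset.filter fun U0 => U0.card < k ∧ (span vs U0).card < k) with hF
  set dead := fun U0 : Finset ι => S.filter fun a => ¬ vs a ⊆ span vs U0 with hdead
  -- pointwise
  have hpt : ∀ J : Finset ι, 1 ≤ ind (Good vs (256 * k) k (S ∩ J)) +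
      ((S ∩ J).card : ℝ) / (256 * k) + ∑ U0 ∈ F, ind (U0 ⊆ J ∧ Disjoint (dead U0) J) := by
    intro J
    have hs : 0 ≤ ∑ U0 ∈ F, ind (U0 ⊆ J ∧ Disjoint (dead U0) J) :=
      Finset.sum_nonneg fun U0 _ => ind_nonneg _
    have hc : (0 : ℝ) ≤ ((S ∩ J).card : ℝ) / (256 * k) := by positivity
    by_cases hg : Good vs (256 * k) k (S ∩ J)
    · rw [ind_of hg]; linarith
    rw [ind_of_not hg]
    simp only [Good, not_and_or, not_le] at hg
    rcases hg with hg | hg
    · have : (1 : ℝ) ≤ ((S ∩ J).card : ℝ) / (256 * k) := by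
        rw [one_le_div (by positivity)]
        exact_mod_cast hg.le
      linarith
    · obtain ⟨U0, hsub, hcard, heq⟩ := exists_small_spanning vs (S ∩ J)
      have hmem : U0 ∈ F := Finset.mem_filter.2 ⟨Finset.mem_powerset.2
        (hsub.trans Finset.inter_subset_left), by omega, by rw [heq]; exact hg⟩
      have hev : U0 ⊆ J ∧ Disjoint (dead U0) J := by
        refine ⟨hsub.trans Finset.inter_subset_right, Finset.disjoint_left.2 fun a ha haJ => ?_⟩
        obtain ⟨h1, h2⟩ := Finset.mem_filter.1 ha
        apply h2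
        rw [heq]
        exact Finset.subset_biUnion_of_mem vs (Finset.mem_inter.2 ⟨h1, haJ⟩)
      have := Finset.single_le_sum (f := fun U0 => ind (U0 ⊆ J ∧ Disjoint (dead U0) J))
        (fun U0 _ => ind_nonneg _) hmem
      rw [ind_of hev] at this
      linarith
  have hdj : ∀ U0 ∈ F, Disjoint U0 (dead U0) := fun U0 _ =>
    Finset.disjoint_left.2 fun a ha hd => (Finset.mem_filter.1 hd).2 (Finset.subset_biUnion_of_mem vs ha)
  have hdc : ∀ U0 ∈ F, w ≤ 2 * (dead U0).card := by
    intro U0 hU0
    have h1 := hfib (span vs U0)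
    have h2 := Finset.card_filter_add_card_filter_not (s := S) (fun a => vs a ⊆ span vs U0)
    have h3 : m * (span vs U0).card ^ r ≤ m * (k - 1) ^ r :=
      Nat.mul_le_mul_left _ (Nat.pow_le_pow_left
        (by have := (Finset.mem_filter.1 hU0).2.2; omega) r)
    simp only [hdead]
    omega
  have hk0 : (0 : ℝ) < k := by exact_mod_cast hk
  have key : (1 : ℝ) ≤ ex q (fun J => ind (Good vs (256 * k) k (S ∩ J))) +
      q * N / (256 * k) + ∑ U0 ∈ F, q ^ U0.card * (1 - q) ^ (dead U0).card := by
    have h1 := avg_mono hq0 hq1 (J := (univ : Finset ι)) hpt ∅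
    rw [avg_const, avg_add, avg_add, avg_sum] at h1
    refine h1.trans (le_of_eq ?_)
    congr 1
    · congr 1
      have e : (fun J : Finset ι => ((S ∩ J).card : ℝ) / (256 * k)) =
          fun J => (256 * (k : ℝ))⁻¹ * ((S ∩ J).card : ℝ) := by funext J; ring
      rw [e, avg_mul_left]
      have h2 := ex_card_inter q S
      unfold ex at h2
      rw [h2]
      ring
    · exact Finset.sum_congr rfl fun U0 hU0 => ex_pattern q (hdj U0 hU0)
  have hqN : q * N ≤ 64 * k := by
    rw [hqe, div_mul_eq_mul_div, div_le_iff₀ hwpos]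
    have : (N : ℝ) ≤ 2 * w := by exact_mod_cast hw2.le
    nlinarith
  have hA : q * (N : ℝ) / (256 * k) ≤ 1 / 4 := by
    rw [div_le_iff₀ (by positivity)]; linarith
  have hB : ∑ U0 ∈ F, q ^ U0.card * (1 - q) ^ (dead U0).card ≤ 1 / 2 := by
    have ha : (0 : ℝ) < 1 / 32 := by norm_num
    calc ∑ U0 ∈ F, q ^ U0.card * (1 - q) ^ (dead U0).card
        ≤ ∑ U0 ∈ F, q ^ U0.card * ((32 : ℝ) ^ k * (1 / 32) ^ U0.card * Real.exp (-(q * w / 2))) := by
          refine Finset.sum_le_sum fun U0 hU0 => mul_le_mul_of_nonneg_left ?_ (by positivity)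
          have h1 : (1 : ℝ) ≤ (32 : ℝ) ^ k * (1 / 32) ^ U0.card := by
            have hj := (Finset.mem_filter.1 hU0).2.1
            rw [div_pow, one_pow, mul_one_div, one_le_div (by positivity)]
            exact pow_le_pow_right₀ (by norm_num) hj.le
          have h2 : (1 - q) ^ (dead U0).card ≤ Real.exp (-(q * w / 2)) := by
            refine (pow_le_pow_left₀ (by linarith) (Real.one_sub_le_exp_neg q) _).trans ?_
            rw [← Real.exp_nat_mul]
            refine Real.exp_le_exp.2 ?_
            have : (w : ℝ) ≤ 2 * (dead U0).card := by exact_mod_cast hdc U0 hU0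
            nlinarith
          exact h2.trans (le_mul_of_one_le_left (by positivity) h1)
      _ ≤ ∑ U0 ∈ S.powerset, (32 : ℝ) ^ k * Real.exp (-(q * w / 2)) *
            ((q / 32) ^ U0.card * 1 ^ (S.card - U0.card)) := by
          refine le_trans (le_of_eq (Finset.sum_congr rfl fun U0 _ => ?_))
            (Finset.sum_le_sum_of_subset_of_nonneg (Finset.filter_subset _ _) fun U0 _ _ => by
              positivity)
          rw [one_pow, mul_one, div_pow, div_pow, one_pow]
          ring
      _ = (32 : ℝ) ^ k * Real.exp (-(q * w / 2)) * (q / 32 + 1) ^ N := by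
          rw [← Finset.mul_sum, Finset.sum_pow_mul_eq_add_pow]
      _ ≤ (32 : ℝ) ^ k * Real.exp (-(q * w / 2)) * Real.exp (2 * k) := by
          refine mul_le_mul_of_nonneg_left ?_ (by positivity)
          refine (pow_le_pow_left₀ (by positivity) (Real.add_one_le_exp _) N).trans ?_
          rw [← Real.exp_nat_mul]
          exact Real.exp_le_exp.2 (by nlinarith)
      _ = (32 * Real.exp (-14)) ^ k := by
          have hqw : q * w = 32 * k := by rw [hqe]; field_simp
          rw [hqw, mul_pow, ← Real.exp_nat_mul, mul_assoc, ← Real.exp_add]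
          ring_nf
      _ ≤ 1 / 2 := by
          have h1 : 32 * Real.exp (-14) ≤ 1 / 2 := by
            have h2 : (2 : ℝ) ^ 14 ≤ Real.exp 14 := by
              have h3 : (2 : ℝ) ≤ Real.exp 1 := by linarith [Real.add_one_le_exp (1 : ℝ)]
              calc (2 : ℝ) ^ 14 ≤ Real.exp 1 ^ 14 := pow_le_pow_left₀ (by norm_num) h3 14
                _ = Real.exp 14 := by rw [← Real.exp_nat_mul]; norm_num
            rw [Real.exp_neg, ← div_eq_mul_inv, div_le_iff₀ (Real.exp_pos _)]
            linarith
          exact (pow_le_of_le_one (by positivity) (by linarith) (by omega)).trans h1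
  linarith

end Vale.Agent.P063
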