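import Vale.Agent.P063.Span
import Mathlib.Data.Finset.Image
import Mathlib.Logic.Equiv.Fintype
import Mathlib.Data.Nat.Choose.Sum

/-!
The event that every coordinate of a set has large restricted influence, and symmetry.
-/

namespace Vale.Agent.P063

open Finset

variable {ι V : Type*} [DecidableEq ι] [Fintype ι] [DecidableEq V]

omit [Fintype ι] in
lemma avg_map (b : ℝ) (π : Equiv.Perm ι) (J : Finset ι) (f : Finset ι → ℝ) (x : Finset ι) :
    avg b (J.map π.toEmbedding) f (x.map π.toEmbedding) =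
      avg b J (fun z => f (z.map π.toEmbedding)) x := by
  unfold avg
  symm
  refine Finset.sum_nbij' (fun y => y.map π.toEmbedding) (fun y => y.map π.symm.toEmbedding)
    (fun y hy => ?_) (fun y hy => ?_) (fun y _ => ?_) (fun y _ => ?_) (fun y hy => ?_)
  · exact Finset.mem_powerset.2 (Finset.map_subset_map.2 (Finset.mem_powerset.1 hy))
  · refine Finset.mem_powerset.2 fun a ha => ?_
    obtain ⟨c, hc, rfl⟩ := Finset.mem_map.1 ha
    obtain ⟨d, hd, rfl⟩ := Finset.mem_map.1 (Finset.mem_powerset.1 hy hc)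
    simpa using hd
  · simp only [Finset.map_map]
    ext a; simp
  · simp only [Finset.map_map]
    ext a; simp
  · have e : (x \ J ∪ y).map π.toEmbedding =
        (x.map π.toEmbedding \ J.map π.toEmbedding) ∪ y.map π.toEmbedding := by
      ext a; simp
    simp only [e, wt, Finset.card_map]

lemma ex_map (b : ℝ) (π : Equiv.Perm ι) (f : Finset ι → ℝ) :
    ex b (fun z => f (z.map π.toEmbedding)) = ex b f := by
  unfold ex
  rw [← avg_map, Finset.map_empty]
  congr 1
  ext a
  simp

omit [Fintype ι] in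
lemma piv_map {f : Finset ι → ℝ} {π : Equiv.Perm ι} (hf : ∀ z, f (z.map π.toEmbedding) = f z)
    (e : ι) (z : Finset ι) : piv (π e) f (z.map π.toEmbedding) = piv e f z := by
  unfold piv
  have h1 : insert (π e) (z.map π.toEmbedding) = (insert e z).map π.toEmbedding := by
    rw [Finset.map_insert]; rfl
  have h2 : (z.map π.toEmbedding).erase (π e) = (z.erase e).map π.toEmbedding := by
    rw [Finset.map_erase]; rfl
  rw [h1, h2, hf, hf]

/-- The influence of `e` after restricting to `J`. -/
noncomputable def rinf (b : ℝ) (f : Finset ι → ℝ) (J : Finset ι) (e : ι) (x : Finset ι) : ℝ :=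
  avg b J (piv e f) x

/-- The coordinates of large restricted influence. -/
noncomputable def bigSet (b γ : ℝ) (f : Finset ι → ℝ) (J x : Finset ι) : Finset ι :=
  J.filter fun e => γ < rinf b f J e x

/-- The event that all of `U` is big while few coordinates are. -/
noncomputable def bigEv (b γ : ℝ) (M : ℕ) (f : Finset ι → ℝ) (U J x : Finset ι) : ℝ :=
  ind (U ⊆ bigSet b γ f J x ∧ (bigSet b γ f J x).card ≤ M)

/-- Its probability. -/
noncomputable def bigProb (q b γ : ℝ) (M : ℕ) (f : Finset ι → ℝ) (U : Finset ι) : ℝ :=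
  ex q fun J => ex b fun x => bigEv b γ M f U J x

omit [Fintype ι] in
lemma bigSet_map {b γ : ℝ} {f : Finset ι → ℝ} {π : Equiv.Perm ι}
    (hf : ∀ z, f (z.map π.toEmbedding) = f z) (J x : Finset ι) :
    bigSet b γ f (J.map π.toEmbedding) (x.map π.toEmbedding) =
      (bigSet b γ f J x).map π.toEmbedding := by
  unfold bigSet
  rw [Finset.filter_map]
  congr 1
  refine Finset.filter_congr fun e _ => ?_
  simp only [Function.comp_apply, rinf, Equiv.coe_toEmbedding, avg_map, piv_map hf]

lemma bigProb_map {q b γ : ℝ} {M : ℕ} {f : Finset ι → ℝ} {π : Equiv.Perm ι}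
    (hf : ∀ z, f (z.map π.toEmbedding) = f z) (U : Finset ι) :
    bigProb q b γ M f (U.map π.toEmbedding) = bigProb q b γ M f U := by
  unfold bigProb
  rw [← ex_map q π]
  congr 1
  funext J
  rw [← ex_map b π]
  congr 1
  funext x
  unfold bigEv
  rw [bigSet_map hf, Finset.map_subset_map, Finset.card_map]

lemma bigProb_nonneg {q b γ : ℝ} (hq0 : 0 ≤ q) (hq1 : q ≤ 1) (hb : Mid b) (M : ℕ)
    (f : Finset ι → ℝ) (U : Finset ι) : 0 ≤ bigProb q b γ M f U := by
  unfold bigProb ex bigEv
  exact avg_nonneg hq0 hq1 (fun _ => avg_nonneg hb.pos hb.le_one (fun _ => ind_nonneg _) _) _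

omit [DecidableEq ι] [Fintype ι] in
lemma card_small_subsets_le {B : Finset ι} {M K : ℕ} (hB : B.card ≤ M) :
    (B.powerset.filter fun U => U.card ≤ K).card ≤ (M + 1) ^ K := by
  classical
  have e : (B.powerset.filter fun U => U.card ≤ K) ⊆
      (Finset.range (K + 1)).biUnion fun j => B.powersetCard j := by
    intro U hU
    obtain ⟨h1, h2⟩ := Finset.mem_filter.1 hU
    exact Finset.mem_biUnion.2 ⟨U.card, Finset.mem_range.2 (by omega),
      Finset.mem_powersetCard.2 ⟨Finset.mem_powerset.1 h1, rfl⟩⟩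
  refine (Finset.card_le_card e).trans (Finset.card_biUnion_le.trans ?_)
  simp only [Finset.card_powersetCard]
  calc ∑ j ∈ Finset.range (K + 1), B.card.choose j
      ≤ ∑ j ∈ Finset.range (K + 1), M ^ j * 1 ^ (K - j) * K.choose j := by
        refine Finset.sum_le_sum fun j hj => ?_
        have hj' : j ≤ K := Nat.lt_succ_iff.1 (Finset.mem_range.1 hj)
        calc B.card.choose j ≤ M.choose j := Nat.choose_le_choose j hB
          _ ≤ M ^ j := Nat.choose_le_pow M j
          _ ≤ M ^ j * 1 ^ (K - j) * K.choose j := by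
              rw [one_pow, mul_one]; exact Nat.le_mul_of_pos_right _ (Nat.choose_pos hj')
    _ = (M + 1) ^ K := by rw [add_pow]; simp

lemma sum_bigProb_le {q b γ : ℝ} (hq0 : 0 ≤ q) (hq1 : q ≤ 1) (hb : Mid b) (M K : ℕ)
    (f : Finset ι → ℝ) :
    ∑ U ∈ (univ : Finset (Finset ι)).filter (fun U => U.card ≤ K), bigProb q b γ M f U ≤
      ((M + 1 : ℕ) : ℝ) ^ K := by
  classical
  set s := (univ : Finset (Finset ι)).filter (fun U => U.card ≤ K) with hs
  have hpt : ∀ J x, ∑ U ∈ s, bigEv b γ M f U J x ≤ ((M + 1 : ℕ) : ℝ) ^ K := by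
    intro J x
    by_cases h : (bigSet b γ f J x).card ≤ M
    · have e : ∀ U : Finset ι, bigEv b γ M f U J x = if U ⊆ bigSet b γ f J x then 1 else 0 := by
        intro U
        unfold bigEv
        split_ifs with h'
        · exact ind_of ⟨h', h⟩
        · exact ind_of_not fun h'' => h' h''.1
      simp only [e, Finset.sum_boole]
      have hle : (s.filter fun U => U ⊆ bigSet b γ f J x).card ≤ (M + 1) ^ K :=
        le_trans (Finset.card_le_card fun U hU => by
          simp only [hs, Finset.mem_filter, Finset.mem_univ, true_and, Finset.mem_powerset] at hU ⊢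
          exact ⟨hU.2, hU.1⟩) (card_small_subsets_le h)
      exact_mod_cast hle
    · refine le_trans (le_of_eq (Finset.sum_eq_zero fun U _ => ?_)) (by positivity)
      exact ind_of_not fun h' => h h'.2
  unfold bigProb ex
  rw [← avg_sum]
  refine (avg_mono hq0 hq1 (g := fun _ => ((M + 1 : ℕ) : ℝ) ^ K) (fun J => ?_) _).trans
    (le_of_eq (avg_const _ _ _ _))
  rw [← avg_sum]
  exact (avg_mono hb.pos hb.le_one (g := fun _ => ((M + 1 : ℕ) : ℝ) ^ K) (hpt J) _).trans
    (le_of_eq (avg_const _ _ _ _))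

/-- The vertex symmetry. -/
def Symmetric [Fintype V] (vs : ι → Finset V) (f : Finset ι → ℝ) : Prop :=
  ∀ σ : Equiv.Perm V, ∃ π : Equiv.Perm ι, (∀ a, vs (π a) = (vs a).map σ.toEmbedding) ∧
    ∀ z, f (z.map π.toEmbedding) = f z

/-- By symmetry, a fixed set is rarely all big. -/
lemma choose_mul_bigProb_le [Fintype V] {q b γ : ℝ} (hq0 : 0 ≤ q) (hq1 : q ≤ 1) (hb : Mid b)
    (M K : ℕ) {vs : ι → Finset V} {f : Finset ι → ℝ} (hsym : Symmetric vs f) {U : Finset ι}
    (hU : U.card ≤ K) :
    ((Fintype.card V).choose (span vs U).card : ℝ) * bigProb q b γ M f U ≤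
      ((M + 1 : ℕ) : ℝ) ^ K := by
  classical
  set v := (span vs U).card with hv
  set s := (univ : Finset (Finset ι)).filter (fun U => U.card ≤ K) with hs
  set Q := fun A : Finset V => ∑ U' ∈ s.filter (fun U' => span vs U' = A), bigProb q b γ M f U'
    with hQ
  have hnn : ∀ U', 0 ≤ bigProb q b γ M f U' := bigProb_nonneg hq0 hq1 hb M f
  have hQeq : ∀ A ∈ (univ : Finset V).powersetCard v, bigProb q b γ M f U ≤ Q A := by
    intro A hA
    have hAc : A.card = (span vs U).card := (Finset.mem_powersetCard.1 hA).2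
    obtain ⟨σ, hσ⟩ : ∃ σ : Equiv.Perm V, (span vs U).map σ.toEmbedding = A := by
      set e := Finset.equivOfCardEq hAc.symm with he
      refine ⟨e.extendSubtype, Finset.eq_of_subset_of_card_le (fun a ha => ?_) ?_⟩
      · obtain ⟨c, hc, rfl⟩ := Finset.mem_map.1 ha
        exact Equiv.extendSubtype_mem e c hc
      · rw [Finset.card_map, hAc]
    obtain ⟨π, hπ1, hπ2⟩ := hsym σ
    have hspan : span vs (U.map π.toEmbedding) = A := by
      rw [← hσ]
      ext a
      unfold span
      constructor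
      · intro ha
        obtain ⟨c', hc', hac⟩ := Finset.mem_biUnion.1 ha
        obtain ⟨c, hc, rfl⟩ := Finset.mem_map.1 hc'
        rw [Equiv.coe_toEmbedding, hπ1 c] at hac
        obtain ⟨d, hd, rfl⟩ := Finset.mem_map.1 hac
        exact Finset.mem_map.2 ⟨d, Finset.mem_biUnion.2 ⟨c, hc, hd⟩, rfl⟩
      · intro ha
        obtain ⟨d, hd, rfl⟩ := Finset.mem_map.1 ha
        obtain ⟨c, hc, hdc⟩ := Finset.mem_biUnion.1 hd
        refine Finset.mem_biUnion.2 ⟨π c, Finset.mem_map.2 ⟨c, hc, rfl⟩, ?_⟩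
        rw [hπ1 c]
        exact Finset.mem_map.2 ⟨d, hdc, rfl⟩
    rw [← bigProb_map hπ2 U]
    exact Finset.single_le_sum (f := fun U' => bigProb q b γ M f U') (fun U' _ => hnn U')
      (Finset.mem_filter.2 ⟨Finset.mem_filter.2 ⟨Finset.mem_univ _, by rwa [Finset.card_map]⟩, hspan⟩)
  have h1 := Finset.card_nsmul_le_sum _ Q _ hQeq
  rw [Finset.card_powersetCard, Finset.card_univ, nsmul_eq_mul] at h1
  refine h1.trans ((Finset.sum_le_sum_of_subset_of_nonneg (Finset.subset_univ _)
    fun A _ _ => Finset.sum_nonneg fun U' _ => hnn U').trans ?_)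
  exact (le_of_eq (Finset.sum_fiberwise s (fun U' => span vs U')
    (fun U' => bigProb q b γ M f U'))).trans (sum_bigProb_le hq0 hq1 hb M K f)

end Vale.Agent.P063
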