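import Vale.Agent.P063.Defs
import Mathlib.Analysis.Calculus.Deriv.MeanValue
import Mathlib.Analysis.Calculus.Deriv.Mul
import Mathlib.Analysis.Calculus.Deriv.Add
import Mathlib.Analysis.Complex.ExponentialBounds
import Mathlib.Tactic.Linarith

/-!
From the influence bound to the width of the threshold: the Russo formula, a substitution of
several bits for one edge, and the mean value theorem.
-/

namespace Vale.Agent.P063

open Finset

section Cube

variable {ι : Type*} [DecidableEq ι]

/-- The Russo formula. -/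
lemma hasDerivAt_avg (J : Finset ι) (F : Finset ι → ℝ) (p : ℝ) :
    ∀ x, HasDerivAt (fun p => avg p J F x)
      (∑ i ∈ J, avg p J (fun z => F (insert i z) - F (z.erase i)) x) p := by
  induction J using Finset.induction_on with
  | empty => intro x; simpa [avg_empty] using hasDerivAt_const p (F x)
  | insert i J hi ih =>
    intro x
    simp only [avg_insert hi]
    unfold op
    have e : avg p J F (insert i x) - avg p J F (x.erase i) =
        avg p J (fun z => F (insert i z) - F (z.erase i)) x := by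
      rw [avg_sub]
      have e1 : avg p J F (insert i x) = avg p J (fun z => F (insert i z)) x := by
        unfold avg
        refine Finset.sum_congr rfl fun y _ => ?_
        congr 2
        ext a; simp only [mem_union, mem_sdiff, mem_insert]
        by_cases h : a = i
        · subst h; simp [hi]
        · simp [h]
      have e2 : avg p J F (x.erase i) = avg p J (fun z => F (z.erase i)) x := by
        unfold avg
        refine Finset.sum_congr rfl fun y hy => ?_
        have hyi : i ∉ y := fun h => hi (Finset.mem_powerset.1 hy h)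
        congr 2
        ext a; simp only [mem_union, mem_sdiff, mem_erase]
        by_cases h : a = i
        · subst h; simp [hyi]
        · simp [h]
      rw [e1, e2]
    have e3 : op p i (avg p J (fun z => F (insert i z) - F (z.erase i))) x =
        avg p J (fun z => F (insert i z) - F (z.erase i)) x := by
      rw [← avg_op_comm]
      congr 1
      funext z
      unfold op
      beta_reduce
      rw [insert_idem, erase_idem, erase_insert_eq_erase,
        show insert i (z.erase i) = insert i z by ext a; simp only [mem_insert, mem_erase]; tauto]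
      ring
    refine (((hasDerivAt_id' p).mul (ih (insert i x))).add
      (((hasDerivAt_id' p).const_sub 1).mul (ih (x.erase i)))).congr_deriv ?_
    rw [Finset.sum_insert hi]
    have hsum : ∀ j ∈ J, (p * avg p J (fun z => F (insert j z) - F (z.erase j)) (insert i x) +
        (1 - p) * avg p J (fun z => F (insert j z) - F (z.erase j)) (x.erase i)) =
        op p i (avg p J (fun z => F (insert j z) - F (z.erase j))) x := fun _ _ => rfl
    have e4 : p * avg p J (fun z => F (insert i z) - F (z.erase i)) (insert i x) +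
        (1 - p) * avg p J (fun z => F (insert i z) - F (z.erase i)) (x.erase i) =
        avg p J (fun z => F (insert i z) - F (z.erase i)) x := e3
    rw [e4, ← e, Finset.sum_add_distrib, ← Finset.mul_sum, ← Finset.mul_sum]
    ring

end Cube

section Bits

variable {E : Type*} [DecidableEq E] [Fintype E] {m : ℕ}

/-- An edge is present when all its bits are. -/
def collapse (z : Finset (E × Fin m)) : Finset E := univ.filter fun e => ∀ t, (e, t) ∈ z

lemma mem_collapse {z : Finset (E × Fin m)} {e : E} : e ∈ collapse z ↔ ∀ t, (e, t) ∈ z := by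
  simp [collapse]

/-- The bits of one edge. -/
def fibre (e : E) : Finset (E × Fin m) := ({e} : Finset E) ×ˢ univ

/-- All the bits of a set are present. -/
def allOn (A : Finset (E × Fin m)) (z : Finset (E × Fin m)) : ℝ :=
  ∏ i ∈ A, cond (decide (i ∈ z)) 1 0

omit [Fintype E] in
lemma allOn_eq (A z : Finset (E × Fin m)) : allOn A z = if A ⊆ z then 1 else 0 := by
  have h : ∀ i ∈ A, cond (decide (i ∈ z)) (1 : ℝ) 0 = if i ∈ z then 1 else 0 := fun i _ => by
    by_cases h : i ∈ z <;> simp [h]
  rw [allOn, Finset.prod_congr rfl h, Finset.prod_boole]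
  rfl

omit [Fintype E] in
lemma avg_allOn (b : ℝ) {A J : Finset (E × Fin m)} (h : A ⊆ J) (x : Finset (E × Fin m)) :
    avg b J (allOn A) x = b ^ A.card := by
  unfold allOn
  rw [avg_prod b (fun _ v => cond v 1 0), Finset.inter_eq_left.2 h,
    Finset.sdiff_eq_empty_iff_subset.2 h]
  simp

omit [Fintype E] in
lemma mem_fibre {e : E} {q : E × Fin m} : q ∈ fibre (m := m) e ↔ q.1 = e := by
  obtain ⟨a, s⟩ := q
  simp [fibre, eq_comm]

lemma collapse_update (x y : Finset (E × Fin m)) (e : E) (hy : y ⊆ fibre e) :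
    collapse ((x \ fibre e) ∪ y) =
      if fibre e ⊆ (x \ fibre e) ∪ y then insert e (collapse x) else (collapse x).erase e := by
  have h : ∀ a, a ≠ e → (a ∈ collapse ((x \ fibre e) ∪ y) ↔ a ∈ collapse x) := by
    intro a ha
    simp only [mem_collapse]
    refine forall_congr' fun t => ?_
    have hy' : (a, t) ∉ y := fun h => ha (mem_fibre.1 (hy h))
    simp [mem_fibre, ha, hy']
  split_ifs with hc
  · ext a
    by_cases ha : a = e
    · subst ha
      simp only [mem_collapse, mem_insert, true_or, iff_true]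
      exact fun t => hc (mem_fibre.2 rfl)
    · simp [h a ha, ha]
  · ext a
    by_cases ha : a = e
    · subst ha
      simp only [mem_collapse, mem_erase, ne_eq, not_true, false_and, iff_false]
      exact fun h' => hc fun q hq => by
        obtain ⟨a', t⟩ := q
        obtain rfl := mem_fibre.1 hq
        exact h' t
    · simp [h a ha, ha]

lemma avg_collapse (b : ℝ) (F : Finset E → ℝ) :
    ∀ A : Finset E, avg b (A ×ˢ (univ : Finset (Fin m))) (fun z => F (collapse z)) =
      fun z => avg (b ^ m) A F (collapse z) := by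
  intro A
  induction A using Finset.induction_on with
  | empty => funext z; simp [avg_empty]
  | insert e A he ih =>
    have e1 : (insert e A) ×ˢ (univ : Finset (Fin m)) = fibre e ∪ A ×ˢ univ := by
      ext q; simp [mem_fibre]
    have e2 : Disjoint (fibre (m := m) e) (A ×ˢ univ) := by
      rw [Finset.disjoint_left]
      intro q hq hq'
      exact he (mem_fibre.1 hq ▸ (Finset.mem_product.1 hq').1)
    funext x
    rw [e1, avg_union e2, ih, avg_insert he]
    set G := avg (b ^ m) A F
    rw [avg_congr (g := fun w => G ((collapse x).erase e) +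
      (G (insert e (collapse x)) - G ((collapse x).erase e)) * allOn (fibre e) w)]
    · rw [avg_add, avg_const, avg_mul_left, avg_allOn b (Finset.Subset.refl _)]
      unfold op
      simp only [fibre, card_product, card_singleton, card_univ, Fintype.card_fin, one_mul]
      ring
    · intro y hy
      rw [collapse_update x y e hy, allOn_eq]
      split_ifs <;> ring

lemma ex_collapse (b : ℝ) (F : Finset E → ℝ) :
    ex b (fun z : Finset (E × Fin m) => F (collapse z)) = ex (b ^ m) F := by
  unfold ex
  rw [← Finset.univ_product_univ, avg_collapse]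
  exact avg_out F (by simp)

lemma piv_collapse (F : Finset E → ℝ) (e : E) (t : Fin m) (z : Finset (E × Fin m)) :
    piv (e, t) (fun z => F (collapse z)) z =
      piv e F (collapse z) * allOn ((fibre e).erase (e, t)) z := by
  have h1 : collapse (z.erase (e, t)) = (collapse z).erase e := by
    ext a
    simp only [mem_collapse, mem_erase]
    constructor
    · intro h
      refine ⟨fun ha => (h t).1 (by rw [ha]), fun s => (h s).2⟩
    · rintro ⟨ha, h⟩ s
      exact ⟨fun he => ha (Prod.ext_iff.1 he).1, h s⟩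
  have h2 : collapse (insert (e, t) z) =
      if (fibre e).erase (e, t) ⊆ z then insert e (collapse z) else (collapse z).erase e := by
    split_ifs with hc <;> ext a <;> simp only [mem_collapse, mem_insert, mem_erase, Prod.mk.injEq]
    · by_cases ha : a = e
      · subst ha
        simp only [true_and, true_or, iff_true]
        intro s
        by_cases hs : s = t
        · exact Or.inl hs
        · exact Or.inr (hc (mem_erase.2 ⟨by simp [hs], mem_fibre.2 rfl⟩))
      · simp [ha]
    · by_cases ha : a = e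
      · subst ha
        simp only [true_and, ne_eq, not_true, false_and, iff_false]
        intro h
        refine hc fun q hq => ?_
        obtain ⟨hq1, hq2⟩ := mem_erase.1 hq
        obtain ⟨a', s⟩ := q
        obtain rfl := mem_fibre.1 hq2
        rcases h s with h' | h'
        · exact absurd (by rw [h']) hq1
        · exact h'
      · simp [ha]
  unfold piv
  beta_reduce
  rw [h1, h2, allOn_eq]
  split_ifs <;> simp_all

lemma totInf_collapse (b : ℝ) (F : Finset E → ℝ) :
    totInf b (fun z : Finset (E × Fin m) => F (collapse z)) =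
      (m : ℝ) * b ^ (m - 1) * totInf (b ^ m) F := by
  unfold totInf
  rw [Fintype.sum_prod_type, Finset.mul_sum]
  refine Finset.sum_congr rfl fun e _ => ?_
  have h : ∀ t : Fin m, ex b (piv (e, t) (fun z : Finset (E × Fin m) => F (collapse z))) =
      b ^ (m - 1) * ex (b ^ m) (piv e F) := by
    intro t
    have hind : ∀ z, ∀ y ⊆ fibre (m := m) e,
        piv e F (collapse ((z \ fibre e) ∪ y)) = piv e F (collapse z) := by
      intro z y hy
      rw [collapse_update z y e hy]
      unfold piv
      split_ifs <;>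
        simp only [insert_idem, erase_idem, erase_insert_eq_erase,
          show insert e ((collapse z).erase e) = insert e (collapse z) by
            ext a; simp only [mem_insert, mem_erase]; tauto] at * <;> contradiction
    rw [show piv (e, t) (fun z : Finset (E × Fin m) => F (collapse z)) = _ from
      funext (piv_collapse F e t), ← ex_avg b (fibre e)]
    have hfun : avg b (fibre e) (fun z => piv e F (collapse z) * allOn ((fibre e).erase (e, t)) z)
        = fun x => b ^ (m - 1) * piv e F (collapse x) := by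
      funext x
      rw [avg_mul_indep hind, avg_allOn b (Finset.erase_subset _ _),
        card_erase_of_mem (mem_fibre.2 (rfl : ((e, t) : E × Fin m).1 = e))]
      simp [fibre, mul_comm]
    rw [hfun]
    unfold ex
    rw [avg_mul_left]
    congr 1
    exact ex_collapse b (piv e F)
  rw [Finset.sum_congr rfl fun t _ => h t, Finset.sum_const, card_univ, Fintype.card_fin,
    nsmul_eq_mul]
  ring

end Bits

variable {n r : ℕ}

/-- The indicator of a property. -/
noncomputable def indP (P : Set (Finset (Edge n r))) (H : Finset (Edge n r)) : ℝ :=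
  P.indicator (fun _ => 1) H

lemma indP_zero_or_one (P : Set (Finset (Edge n r))) (H : Finset (Edge n r)) :
    indP P H = 0 ∨ indP P H = 1 := by
  unfold indP
  by_cases h : H ∈ P
  · exact Or.inr (Set.indicator_of_mem h _)
  · exact Or.inl (Set.indicator_of_notMem h _)

lemma mu_eq_ex (p : ℝ) (P : Set (Finset (Edge n r))) : mu p P = ex p (indP P) := by
  rw [ex_eq_sum]
  refine Finset.sum_congr rfl fun H _ => ?_
  unfold indP wt
  by_cases h : H ∈ P
  · rw [Set.indicator_of_mem h, Set.indicator_of_mem h, mul_one, card_compl, card_univ]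
  · rw [Set.indicator_of_notMem h, Set.indicator_of_notMem h, mul_zero]

lemma hasDerivAt_mu {P : Set (Finset (Edge n r))} (hup : IsUpperSet P) (p : ℝ) :
    HasDerivAt (fun p => mu p P) (totInf p (indP P)) p := by
  have h := hasDerivAt_avg univ (indP P) p ∅
  simp only [mu_eq_ex]
  refine h.congr_deriv (Finset.sum_congr rfl fun i _ => ?_)
  unfold ex
  congr 1
  funext z
  have hsub : z.erase i ⊆ insert i z := (erase_subset i z).trans (subset_insert i z)
  unfold piv indP
  by_cases h1 : z.erase i ∈ P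
  · rw [Set.indicator_of_mem h1, Set.indicator_of_mem (hup hsub h1)]
    simp
  · by_cases h2 : insert i z ∈ P
    · rw [Set.indicator_of_notMem h1, Set.indicator_of_mem h2]
      simp
    · rw [Set.indicator_of_notMem h1, Set.indicator_of_notMem h2]
      simp

lemma mu_nonneg {p : ℝ} (h0 : 0 ≤ p) (h1 : p ≤ 1) (P : Set (Finset (Edge n r))) : 0 ≤ mu p P := by
  rw [mu_eq_ex]
  exact avg_nonneg h0 h1 (fun z => by rcases indP_zero_or_one P z with h | h <;> simp [h]) _

lemma mu_le_one {p : ℝ} (h0 : 0 ≤ p) (h1 : p ≤ 1) (P : Set (Finset (Edge n r))) : mu p P ≤ 1 := by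
  rw [mu_eq_ex]
  exact (avg_mono h0 h1 (g := fun _ => (1 : ℝ))
    (fun z => by rcases indP_zero_or_one P z with h | h <;> simp [h]) _).trans
    (le_of_eq (avg_const _ _ _ _))

lemma monotoneOn_mu {P : Set (Finset (Edge n r))} (hup : IsUpperSet P) :
    MonotoneOn (fun p => mu p P) (Set.Icc 0 1) := by
  refine monotoneOn_of_deriv_nonneg (convex_Icc 0 1)
    (fun p _ => (hasDerivAt_mu hup p).continuousAt.continuousWithinAt)
    (fun p _ => (hasDerivAt_mu hup p).differentiableAt.differentiableWithinAt) fun p hp => ?_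
  rw [interior_Icc] at hp
  rw [(hasDerivAt_mu hup p).deriv]
  refine Finset.sum_nonneg fun i _ => avg_nonneg hp.1.le hp.2.le (fun z => ?_) _
  unfold piv
  split <;> norm_num

lemma mu_one {P : Set (Finset (Edge n r))} (hup : IsUpperSet P) (hne : P.Nonempty) :
    mu 1 P = 1 := by
  obtain ⟨H0, hH0⟩ := hne
  rw [mu_eq_ex, ex_eq_sum, Finset.sum_eq_single univ]
  · rw [indP, Set.indicator_of_mem (hup (subset_univ H0) hH0)]
    simp [wt]
  · intro y _ hy
    have : 0 < (univ : Finset (Edge n r)).card - y.card :=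
      Nat.sub_pos_of_lt (card_lt_card (lt_of_le_of_ne (subset_univ y) hy))
    rw [wt, sub_self, zero_pow this.ne']
    simp
  · simp

/-- The dual property. -/
def dual (P : Set (Finset (Edge n r))) : Set (Finset (Edge n r)) := {H | Hᶜ ∉ P}

lemma dual_upper {P : Set (Finset (Edge n r))} (hup : IsUpperSet P) : IsUpperSet (dual P) := by
  intro H H' hle h h'
  exact h (hup (compl_subset_compl.2 hle) h')

lemma dual_invariant {P : Set (Finset (Edge n r))} (hinv : Invariant P) : Invariant (dual P) := by
  intro σ H h h'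
  apply h
  have h2 := hinv σ⁻¹ _ h'
  convert h2 using 1
  ext a
  simp only [mem_compl, mem_map_equiv]
  have : (edgePerm σ).symm ((edgePerm σ⁻¹).symm a) = a := by
    rw [Equiv.symm_apply_eq]
    apply Subtype.ext
    ext v
    simp [edgePerm]
  rw [this]

lemma mu_dual (q : ℝ) (P : Set (Finset (Edge n r))) : mu q (dual P) = 1 - mu (1 - q) P := by
  have h1 : (1 : ℝ) = ∑ H : Finset (Edge n r), q ^ H.card * (1 - q) ^ Hᶜ.card := by
    have h := sum_wt q (univ : Finset (Edge n r))
    rw [powerset_univ] at h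
    exact h.symm.trans (Finset.sum_congr rfl fun H _ => by rw [wt, card_compl, card_univ])
  have h2 : mu (1 - q) P = ∑ H : Finset (Edge n r),
      (P.indicator (fun _ => (1 : ℝ)) Hᶜ) * (q ^ H.card * (1 - q) ^ Hᶜ.card) := by
    refine Fintype.sum_bijective compl compl_involutive.bijective _ _ fun H => ?_
    rw [compl_compl]
    by_cases h : H ∈ P
    · rw [Set.indicator_of_mem h, Set.indicator_of_mem h]; ring
    · rw [Set.indicator_of_notMem h, Set.indicator_of_notMem h, zero_mul]
  refine eq_sub_of_add_eq (Eq.trans ?_ h1.symm)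
  rw [h2, mu, ← Finset.sum_add_distrib]
  refine Finset.sum_congr rfl fun H _ => ?_
  by_cases h : Hᶜ ∈ P
  · rw [Set.indicator_of_notMem (show H ∉ dual P from fun h' => h' h), Set.indicator_of_mem h]
    ring
  · rw [Set.indicator_of_mem (show H ∈ dual P from h), Set.indicator_of_notMem h]
    ring

lemma collapse_map {m : ℕ} (σ : Equiv.Perm (Fin n)) (z : Finset (Edge n r × Fin m)) :
    collapse (z.map (bitPerm σ).toEmbedding) = (collapse z).map (edgePerm σ).toEmbedding := by
  ext a
  simp only [mem_collapse, mem_map_equiv]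
  rfl

lemma ind_map {P : Set (Finset (Edge n r))} (hinv : Invariant P) (σ : Equiv.Perm (Fin n))
    (H : Finset (Edge n r)) : indP P (H.map (edgePerm σ).toEmbedding) = indP P H := by
  have hiff : H.map (edgePerm σ).toEmbedding ∈ P ↔ H ∈ P := by
    refine ⟨fun h => ?_, hinv σ H⟩
    convert hinv σ⁻¹ _ h using 1
    ext a
    simp only [mem_map_equiv]
    have : (edgePerm σ).symm ((edgePerm σ⁻¹).symm a) = a := by
      rw [Equiv.symm_apply_eq]
      apply Subtype.ext
      ext v
      simp [edgePerm]
    rw [this]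
  unfold indP
  by_cases h : H ∈ P
  · rw [Set.indicator_of_mem h, Set.indicator_of_mem (hiff.2 h)]
  · rw [Set.indicator_of_notMem h, Set.indicator_of_notMem (mt hiff.1 h)]

lemma sq_le_two_mul_two_pow : ∀ m : ℕ, m ^ 2 ≤ 2 * 2 ^ m := by
  intro m
  induction m with
  | zero => simp
  | succ m ih =>
    rcases le_or_gt m 2 with h | h
    · obtain rfl | rfl | rfl : m = 0 ∨ m = 1 ∨ m = 2 := by omega
      all_goals norm_num
    · rw [pow_succ 2 m]; nlinarith

/-- The number of bits replacing one edge. -/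
lemma exists_bits {L p : ℝ} (hL : 1 ≤ L) (hd : 1 / L ^ 2 ≤ p) (hp : p ≤ 3 / 4) :
    ∃ m : ℕ, 1 ≤ m ∧ (m : ℝ) ≤ 8 * Real.log L + 8 ∧ (m : ℝ) ^ 2 * p ≤ 2 ∧
      ∃ b : ℝ, Mid b ∧ b ^ m = p := by
  have hlog : 0 ≤ Real.log L := Real.log_nonneg hL
  have hL2 : (0 : ℝ) < L ^ 2 := by positivity
  have hppos : 0 < p := lt_of_lt_of_le (by positivity) hd
  by_cases h : 1 / 4 ≤ p
  · exact ⟨1, le_rfl, by push_cast; linarith, by push_cast; linarith, p, ⟨h, hp⟩, pow_one p⟩
  rw [not_le] at h
  have h4 : (4 : ℝ) < 1 / p := by rw [lt_div_iff₀ hppos]; linarith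
  set k := ⌊1 / p⌋₊ with hk
  have hk4 : 4 ≤ k := Nat.le_floor (by push_cast; linarith)
  set m := Nat.log 2 k with hm
  have hlow : 2 ^ m ≤ k := Nat.pow_log_le_self 2 (by omega)
  have hup : k < 2 ^ (m + 1) := Nat.lt_pow_succ_log_self (by norm_num) k
  have hm2 : 2 ≤ m := Nat.le_log_of_pow_le (by norm_num) (le_trans (by norm_num) hk4)
  have hlowR : (2 : ℝ) ^ m ≤ 1 / p :=
    le_trans (by exact_mod_cast hlow) (Nat.floor_le (by positivity))
  have hupR : 1 / p < (2 : ℝ) ^ (m + 1) :=
    lt_of_lt_of_le (Nat.lt_floor_add_one (1 / p)) (by exact_mod_cast hup)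
  have hp2 : p * 2 ^ m ≤ 1 := by
    have := mul_le_mul_of_nonneg_left hlowR hppos.le
    rwa [mul_one_div_cancel hppos.ne'] at this
  refine ⟨m, by omega, ?_, ?_, p ^ ((m : ℝ)⁻¹), ⟨?_, ?_⟩, Real.rpow_inv_natCast_pow hppos.le (by omega)⟩
  · have h1 : (2 : ℝ) ^ m ≤ L ^ 2 := hlowR.trans (by
      rw [div_le_iff₀ hppos]
      rw [div_le_iff₀ hL2] at hd
      linarith)
    have h2 := Real.log_le_log (by positivity) h1
    rw [Real.log_pow, Real.log_pow] at h2
    have := Real.log_two_gt_d9
    push_cast at h2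
    have h3 : (0 : ℝ) ≤ m := Nat.cast_nonneg m
    nlinarith
  · have h1 : (m : ℝ) ^ 2 ≤ 2 * 2 ^ m := by exact_mod_cast sq_le_two_mul_two_pow m
    nlinarith
  · rw [Real.le_rpow_inv_iff_of_pos (by norm_num) hppos.le (by positivity), Real.rpow_natCast]
    have h1 : (1 : ℝ) / p < 4 ^ m := hupR.trans_le (by
      rw [show (4 : ℝ) = 2 ^ 2 by norm_num, ← pow_mul]
      exact pow_le_pow_right₀ (by norm_num) (by omega))
    rw [div_lt_iff₀ hppos] at h1
    rw [div_pow, one_pow, div_le_iff₀ (by positivity)]
    linarith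
  · refine le_trans ?_ (show (1 / 2 : ℝ) ≤ 3 / 4 by norm_num)
    rw [Real.rpow_inv_le_iff_of_pos hppos.le (by norm_num) (by positivity), Real.rpow_natCast,
      div_pow, one_pow, le_div_iff₀ (by positivity)]
    exact hp2

/-- The influence bound at every edge probability that is not too small. -/
lemma totInf_lower {c : ℝ} (hc : 0 < c) {a : ℝ} {P : Set (Finset (Edge n r))} (hinv : Invariant P)
    {ε p : ℝ} (hε : 0 < ε) (hL : 1 ≤ Real.log n)
    (hI : ∀ m : ℕ, 1 ≤ m → (m : ℝ) ≤ 8 * Real.log (Real.log n) + 8 →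
      ∀ b : ℝ, Mid b → ∀ f : Finset (Edge n r × Fin m) → ℝ, (∀ z, f z = 0 ∨ f z = 1) →
      (∀ σ z, f (z.map (bitPerm σ).toEmbedding) = f z) →
      ε ≤ ex b f → ex b f ≤ 1 - ε → c * ε * Real.log n ^ a / m ≤ totInf b f)
    (hd : 1 / Real.log n ^ 2 ≤ p) (hp : p ≤ 3 / 4) (h1 : ε ≤ mu p P) (h2 : mu p P ≤ 1 - ε) :
    c * ε * Real.log n ^ a / 8 ≤ totInf p (indP P) := by
  obtain ⟨m, hm1, hm8, hmp, b, hb, rfl⟩ := exists_bits hL hd hp
  have h := hI m hm1 hm8 b hb (fun z => indP P (collapse z))
    (fun z => indP_zero_or_one P _)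
    (fun σ z => by rw [collapse_map, ind_map hinv])
    (by rw [ex_collapse, ← mu_eq_ex]; exact h1) (by rw [ex_collapse, ← mu_eq_ex]; exact h2)
  rw [totInf_collapse] at h
  have hmpos : (0 : ℝ) < m := by exact_mod_cast hm1
  have hb0 := hb.pos
  have hpow : b ^ (m - 1) ≤ 4 * b ^ m := by
    conv_rhs => rw [← Nat.sub_add_cancel hm1, pow_succ]
    nlinarith [pow_nonneg hb0 (m - 1), hb.1]
  have hI0 : 0 ≤ totInf (b ^ m) (indP P) :=
    Finset.sum_nonneg fun i _ => avg_nonneg (by positivity) (pow_le_one₀ hb0 hb.le_one)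
      (fun z => by unfold piv; split <;> norm_num) _
  rw [div_le_iff₀ hmpos] at h
  set I := totInf (b ^ m) (indP P)
  have e1 : (m : ℝ) * b ^ (m - 1) * I * m ≤ 8 * I := by
    have : (m : ℝ) ^ 2 * b ^ (m - 1) ≤ 8 := by nlinarith [sq_nonneg (m : ℝ)]
    nlinarith
  linarith

lemma le_derivative {c : ℝ} (hc : 0 < c) {a : ℝ} {P : Set (Finset (Edge n r))}
    (hinv : Invariant P) (hup : IsUpperSet P) {ε p : ℝ} (hε : 0 < ε) (hL : 1 ≤ Real.log n)
    (hI : ∀ m : ℕ, 1 ≤ m → (m : ℝ) ≤ 8 * Real.log (Real.log n) + 8 →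
      ∀ b : ℝ, Mid b → ∀ f : Finset (Edge n r × Fin m) → ℝ, (∀ z, f z = 0 ∨ f z = 1) →
      (∀ σ z, f (z.map (bitPerm σ).toEmbedding) = f z) →
      ε ≤ ex b f → ex b f ≤ 1 - ε → c * ε * Real.log n ^ a / m ≤ totInf b f)
    (hd : 1 / Real.log n ^ 2 ≤ p) (hd' : p ≤ 1 - 1 / Real.log n ^ 2)
    (h1 : ε ≤ mu p P) (h2 : mu p P ≤ 1 - ε) :
    c * ε * Real.log n ^ a / 8 ≤ totInf p (indP P) := by
  by_cases hp : p ≤ 3 / 4
  · exact totInf_lower hc hinv hε hL hI hd hp h1 h2
  rw [not_le] at hp
  have e : mu (1 - p) (dual P) = 1 - mu p P := by rw [mu_dual, sub_sub_cancel]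
  have h := totInf_lower hc (dual_invariant hinv) hε hL hI (p := 1 - p) (by linarith)
    (by linarith) (by rw [e]; linarith) (by rw [e]; linarith)
  have d1 := hasDerivAt_mu (dual_upper hup) (1 - p)
  have d2 : HasDerivAt (fun q => mu q (dual P)) (totInf p (indP P)) (1 - p) := by
    simp only [mu_dual]
    have d3 := hasDerivAt_mu hup (1 - (1 - p))
    have d4 := ((d3.comp (1 - p) ((hasDerivAt_id' (1 - p)).const_sub 1)).const_sub 1)
    rw [sub_sub_cancel] at d4
    exact d4.congr_deriv (by ring)
  rwa [d1.unique d2] at h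

lemma threshold_facts {P : Set (Finset (Edge n r))} (hup : IsUpperSet P) (hne : P.Nonempty)
    {a : ℝ} (ha : a ≤ 1) :
    0 ≤ threshold P a ∧ threshold P a ≤ 1 ∧
      ∀ p, p ≤ 1 → threshold P a < p → a ≤ mu p P := by
  set S := {p : ℝ | 0 ≤ p ∧ p ≤ 1 ∧ a ≤ mu p P} with hS
  have hmem : (1 : ℝ) ∈ S := ⟨zero_le_one, le_rfl, by rw [mu_one hup hne]; exact ha⟩
  have hbd : BddBelow S := ⟨0, fun p hp => hp.1⟩
  refine ⟨le_csInf ⟨1, hmem⟩ fun p hp => hp.1, csInf_le hbd hmem, fun p hp hlt => ?_⟩
  obtain ⟨q, ⟨hq0, hq1, hq⟩, hqp⟩ := exists_lt_of_csInf_lt ⟨1, hmem⟩ hlt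
  exact hq.trans (monotoneOn_mu hup ⟨hq0, hq1⟩ ⟨hq0.trans hqp.le, hp⟩ hqp.le)

/-- The influence bound implies the conjectured threshold width. -/
theorem width_le_of_influenceBound (r : ℕ) (hr : 2 ≤ r) (hI : InfluenceBound r) :
    ∀ ε : ℝ, 0 < ε → ε < 1 / 2 → ∃ C : ℝ, ∀ n : ℕ, r ≤ n →
    ∀ P : Set (Finset (Edge n r)), Invariant P → IsUpperSet P → P.Nonempty → P ≠ Set.univ →
      width P ε ≤ C * Real.log n ^ (-((r : ℝ) / ((r : ℝ) - 1))) := by
  obtain ⟨c, hc, hI⟩ := hI
  intro ε hε hε2
  obtain ⟨n0, hI⟩ := hI ε hε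
  set a : ℝ := (r : ℝ) / ((r : ℝ) - 1) with ha
  have hr' : (2 : ℝ) ≤ r := by exact_mod_cast hr
  have ha2 : a ≤ 2 := by rw [ha, div_le_iff₀ (by linarith)]; linarith
  set N := max n0 3 with hN
  set K : ℝ := ∑ k ∈ Finset.range N, |Real.log (k : ℝ) ^ a| with hK
  refine ⟨max (2 + 8 / (c * ε)) K, fun n hn P hinv hup hne _ => ?_⟩
  obtain ⟨hlo0, hlo1, hlo⟩ := threshold_facts hup hne (a := ε) (by linarith)
  obtain ⟨hhi0, hhi1, _⟩ := threshold_facts hup hne (a := 1 - ε) (by linarith)
  set lo := threshold P ε with hlodef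
  set hi := threshold P (1 - ε) with hhidef
  have hwidth : width P ε = hi - lo := rfl
  have hLpos : 0 < Real.log (n : ℝ) := Real.log_pos (by exact_mod_cast (show 1 < n by omega))
  rw [hwidth, Real.rpow_neg hLpos.le]
  have hapos : 0 < Real.log (n : ℝ) ^ a := Real.rpow_pos_of_pos hLpos a
  rw [← div_eq_mul_inv, le_div_iff₀ hapos]
  by_cases hlarge : n < N
  · have h1 : hi - lo ≤ 1 := by linarith
    have h2 : Real.log (n : ℝ) ^ a ≤ K := by
      refine (le_abs_self _).trans ?_
      exact Finset.single_le_sum (f := fun k : ℕ => |Real.log (k : ℝ) ^ a|)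
        (fun k _ => abs_nonneg _) (Finset.mem_range.2 hlarge)
    calc (hi - lo) * Real.log (n : ℝ) ^ a ≤ 1 * Real.log (n : ℝ) ^ a :=
          mul_le_mul_of_nonneg_right h1 hapos.le
      _ ≤ max (2 + 8 / (c * ε)) K := by rw [one_mul]; exact h2.trans (le_max_right _ _)
  rw [not_lt] at hlarge
  refine le_trans ?_ (le_max_left _ _)
  have hL : 1 ≤ Real.log (n : ℝ) := by
    rw [Real.le_log_iff_exp_le (by exact_mod_cast (show 0 < n by omega))]
    refine le_trans ?_ (show (3 : ℝ) ≤ n by exact_mod_cast (le_max_right n0 3).trans hlarge)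
    have := Real.exp_one_lt_d9
    linarith
  set L := Real.log (n : ℝ) with hLdef
  set d : ℝ := 1 / L ^ 2 with hddef
  have hd0 : 0 ≤ d := by positivity
  have hdL : d * L ^ a ≤ 1 := by
    rw [hddef, div_mul_eq_mul_div, one_mul, div_le_one (by positivity)]
    calc L ^ a ≤ L ^ (2 : ℝ) := Real.rpow_le_rpow_of_exponent_le hL ha2
      _ = L ^ 2 := by norm_num
  set u := max lo d with hu
  set v := min hi (1 - d) with hv
  have hmid : (v - u) * L ^ a ≤ 8 / (c * ε) := by
    by_cases huv : v ≤ u
    · have : (v - u) * L ^ a ≤ 0 := mul_nonpos_of_nonpos_of_nonneg (by linarith) hapos.le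
      exact this.trans (by positivity)
    rw [not_le] at huv
    obtain ⟨ξ, ⟨hξ1, hξ2⟩, hξ⟩ := exists_hasDerivAt_eq_slope (fun p => mu p P)
      (fun p => totInf p (indP P)) huv
      (fun p _ => (hasDerivAt_mu hup p).continuousAt.continuousWithinAt)
      (fun p _ => hasDerivAt_mu hup p)
    have hu0 : 0 ≤ u := hlo0.trans (le_max_left _ _)
    have hv1 : v ≤ 1 := (min_le_left _ _).trans hhi1
    have hξlo : lo < ξ := lt_of_le_of_lt (le_max_left _ _) hξ1
    have hξhi : ξ < hi := hξ2.trans_le (min_le_left _ _)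
    have hξd : d ≤ ξ := (le_max_right lo d).trans hξ1.le
    have hξd' : ξ ≤ 1 - d := hξ2.le.trans (min_le_right _ _)
    have hm1 : ε ≤ mu ξ P := hlo ξ (by linarith) hξlo
    have hm2 : mu ξ P ≤ 1 - ε := by
      by_contra hcon
      rw [not_le] at hcon
      have hbd : BddBelow {p : ℝ | 0 ≤ p ∧ p ≤ 1 ∧ 1 - ε ≤ mu p P} := ⟨0, fun p hp => hp.1⟩
      have := csInf_le hbd (show ξ ∈ {p : ℝ | 0 ≤ p ∧ p ≤ 1 ∧ 1 - ε ≤ mu p P} from
        ⟨by linarith, by linarith, hcon.le⟩)
      rw [hhidef, threshold] at hξhi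
      linarith
    have hD : c * ε * L ^ a / 8 ≤ totInf ξ (indP P) :=
      le_derivative hc hinv hup hε hL
        (fun m hm hm8 b hb f hf hs e1 e2 =>
          hI n ((le_max_left n0 3).trans hlarge) m hm hm8 b hb f hf hs e1 e2)
        hξd hξd' hm1 hm2
    have hdiff : mu v P - mu u P ≤ 1 := by
      have := mu_le_one (p := v) (by linarith) hv1 P
      have := mu_nonneg (p := u) hu0 (by linarith) P
      linarith
    rw [hξ, le_div_iff₀ (by linarith)] at hD
    rw [le_div_iff₀ (by positivity)]
    nlinarith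
  have h1 : hi - lo ≤ (v - u) + 2 * d := by
    have hvv : hi - d ≤ v := le_min (by linarith) (by linarith)
    have huu : u ≤ lo + d := max_le (by linarith) (by linarith)
    linarith
  calc (hi - lo) * L ^ a ≤ ((v - u) + 2 * d) * L ^ a :=
        mul_le_mul_of_nonneg_right h1 hapos.le
    _ ≤ 2 + 8 / (c * ε) := by linarith [add_mul (v - u) (2 * d) (L ^ a)]

end Vale.Agent.P063
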